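import Claimed.Agent.R256.Inc.Wl
import Claimed.Agent.R256.Inc.Lik

/-!
# Row 256, unit FP (fibre projection lemma = INC-), file 1: definitions and the hypotheses.        (architect helper243)

Written proof: `origin/helper38:notes/R256/INCminus_FP.md` (accepted by 236, 157, 243), in the dyadic form below.
One finite law `P`, a POINT `q : Ω → ℝ × ℝ`, a SLOPE `t : Ω → ℝ`, side data `D`, a TAG `Tg` (any name that determines the slope cell of the finest level),
a POINT NAME `Qn` (any name that determines the planar cell of the finest level: the exact point `q` itself, or a cell of finite depth).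
`n` = bits of one WINDOW, `N` = number of windows, finest level `N * n`.   One bit = `Real.log 2`.   Cells = `icCell` of `Inc/Defs.lean` (nested).
Hypotheses (`FpHyp`):
 (F1) `time`  : given the FINE line `(icU q t (N n), Tg)` the first coordinate is Frostman `d` at the COARSE levels `j ≤ n`;
 (F2) `slope` : in every window `k < N` the slope is Frostman `g` given its cell of level `k n` and the point name;
 (F3) `indep` : `I(Qn ; Tg | D) ≤ χ n` bits.
Conclusion (`fp_main`, file `Main.lean`): the intercept at the level `N n` given the tag has score `≥ (min 1 (d+g) - ξ) N n` bits off an event of mass `ξ`.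

WINDOW `m = k n`.   `fpT t m`, `fpU q t m` = left endpoints of the slope cell and of the intercept cell of level `m`;  TUBE `fpTube q t m = (icS t m, icU q t m)`;
rescaled point `fpQ q t m = (q₁, (q₂ - fpT q₁ - fpU) 2^m)`, rescaled slope `fpS t m = (t - fpT) 2^m ∈ [0,1)`;  its intercept is `(w - fpU) 2^m ∈ [0,1)`, `w = icW q t`.
`fpSc` = score of the intercept in the window given tag, tube, `D`;   `fpFs` = score of the rescaled cell inside its column given tube, `D`.
Definitions are FROZEN.
-/

set_option autoImplicit false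

namespace Claimed.Agent.R256

open Claimed.Agent.R255 Claimed.Agent.R255.FLaw

variable {Ω : Type}

/-- left endpoint of the slope cell of level `m` -/
noncomputable def fpT (t : Ω → ℝ) (m : ℕ) : Ω → ℝ := fun ω => (icS t m ω : ℝ) / 2 ^ m

/-- left endpoint of the intercept cell of level `m` -/
noncomputable def fpU (q : Ω → ℝ × ℝ) (t : Ω → ℝ) (m : ℕ) : Ω → ℝ := fun ω => (icU q t m ω : ℝ) / 2 ^ m

/-- the tube of level `m` -/
noncomputable def fpTube (q : Ω → ℝ × ℝ) (t : Ω → ℝ) (m : ℕ) : Ω → ℤ × ℤ := pair (icS t m) (icU q t m)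

/-- the point in the coordinates of its tube of level `m` -/
noncomputable def fpQ (q : Ω → ℝ × ℝ) (t : Ω → ℝ) (m : ℕ) : Ω → ℝ × ℝ :=
  fun ω => ((q ω).1, ((q ω).2 - fpT t m ω * (q ω).1 - fpU q t m ω) * 2 ^ m)

/-- the slope in the coordinates of its cell of level `m` -/
noncomputable def fpS (t : Ω → ℝ) (m : ℕ) : Ω → ℝ := fun ω => (t ω - fpT t m ω) * 2 ^ m

/-- score of the intercept in the window `[m, m+n]` given the tag, the tube and `D` -/
noncomputable def fpSc [Fintype Ω] {δ β' : Type} (P : FLaw Ω) (q : Ω → ℝ × ℝ) (t : Ω → ℝ) (D : Ω → δ) (Tg : Ω → β')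
    (m n : ℕ) : Ω → ℝ :=
  P.surC (icU (fpQ q t m) (fpS t m) n) (pair Tg (pair (fpTube q t m) D))

/-- score of the rescaled cell inside its column given the tube and `D` -/
noncomputable def fpFs [Fintype Ω] {δ : Type} (P : FLaw Ω) (q : Ω → ℝ × ℝ) (t : Ω → ℝ) (D : Ω → δ) (m n : ℕ) : Ω → ℝ :=
  P.surC (icQ (fpQ q t m) n) (pair (icX (fpQ q t m) n) (pair (fpTube q t m) D))

/-- **the hypotheses of FP** -/
structure FpHyp [Fintype Ω] {δ β' κ : Type} (P : FLaw Ω) (q : Ω → ℝ × ℝ) (t : Ω → ℝ) (D : Ω → δ) (Tg : Ω → β')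
    (Qn : Ω → κ) (A d g χ : ℝ) (N n : ℕ) : Prop where
  bd : IcBd A q t
  tag : ∀ ω ω', Tg ω = Tg ω' → icS t (N * n) ω = icS t (N * n) ω'
  pt : ∀ ω ω', Qn ω = Qn ω' → icQ q (N * n) ω = icQ q (N * n) ω'
  /-- (F1) -/
  time : P.pr (fun ω => ¬ IcGood P (icX q) (pair (pair (icU q t (N * n)) Tg) D) d χ n ω) ≤ χ
  /-- (F2) -/
  slope : ∀ k < N, P.pr (fun ω =>
    ¬ IcGood P (fun j => icS t (k * n + j)) (pair (pair (icS t (k * n)) Qn) D) g χ n ω) ≤ χ
  /-- (F3) -/
  indep : P.miC Qn Tg D ≤ χ * n * Real.log 2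

theorem fp_defs_eqns_cite : True := by
  have := @fpT.eq_1
  have := @fpU.eq_1
  have := @fpTube.eq_1
  have := @fpQ.eq_1
  have := @fpS.eq_1
  have := @fpSc.eq_1
  have := @fpFs.eq_1
  trivial

end Claimed.Agent.R256
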