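import Claimed.Agent.R256.Fp.Main

/-!
# Row 256, unit FP, file 6: CONSUMER FORMS of the fibre projection lemma.        (architect helper243)

* `FpHypS`, `fp_main_s` : all structural hypotheses only ON THE SUPPORT of the law, and the slope cell / planar cell may be determined by `(Tg, D)` / `(Qn, D)` jointly.
* `FpHypE`, `fp_ev`     : FP ON AN EVENT `E` of mass `≥ c0` (chart event, Ramsey colour, residual law ...): hypotheses in the form `pr {E ∧ bad} ≤ χ` with the scores of the ORIGINAL law `P`,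
                          conclusion `pr {E ∧ sur_P(U_{Nn} | Tg, D) < ...} ≤ ξ`.   No measurability of `E` is required.

PLAN of `fp_main_s`.  `good ω := P.p ω ≠ 0`.  New names on the same `Ω`:  `q' ω = if good then q ω else 0`, `t'` the same, `Tg' ω = if good then some (Tg ω, D ω) else none`, `Qn'` the same.
 On the support all old and new names generate the same partitions (given `D`), so every `surC`, `miC` in `FpHyp` and in the conclusion is unchanged at points of the support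
 (`ent_surC_congr`, `ent_congr_ker`; `IcGood` is a conjunction of `surC` bounds; `ent_pr_congr`).   `miC Qn' Tg' D = miC Qn Tg D`: unfold `miC`, four `ent_congr_ker`.
 `IcBd A q' t'` holds everywhere; `tag`, `pt` hold for all pairs (both good: hypothesis; both bad: both values are `0`; mixed: `some ≠ none`).   Then `fp_main`.
PLAN of `fp_ev`.  `P' = P.cnd E` (`ent_cnd_pr`, `ent_cnd_supp`), `L = log 2`.  Data `(N₀; χ', n₁')` of `fp_main_s d g (ξ/2) A`;  `χ := c0 χ'/4`, `t0 := χ' n L/4`, `n` large.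
 `ic_restr` : `P'.pr {t0 < |sur_{P'} X Y - sur_P X Y|} ≤ 2 exp(-t0)/P(E)` for each of the `≤ (N+1)(n+1)+1` pairs of names in play;  `P'.pr B = P.pr (E ∧ B)/P(E) ≤ χ/c0`;
 `ic_restr_mi` : `miC_{P'} ≤ (χ n L + log 2)/c0 ≤ χ' n L`.   So `FpHypS P' ... χ'`.   Back: `sur_P ≥ sur_{P'} - t0`, `t0 ≤ (ξ/2) N n L`;  `P.pr (E ∧ B) = P(E) P'.pr B ≤ P'.pr B`.
* `fp_ev_u` : the same with constants UNIFORM in `d ≥ d0`, `g ≥ g0` (request of helper38: `N`, `χ`, `n₁` are chosen before the exponents).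
PLAN of `fp_ev_u`.  `FpHypE` is monotone: decreasing in `d`, `g` (`IcGood` with a smaller exponent is weaker), increasing in `χ`.   Net `d_i = min (d0 + i ξ/4) 1`, `g_j = min (g0 + j ξ/4) 1`, `i, j ≤ ⌈4/ξ⌉`.
 For `(d, g)` take the largest net point `(d_i, g_j) ≤ (min d 1, min g 1)`;  `min 1 (d_i + g_j) ≥ min 1 (d + g) - ξ/2`;  `fp_ev d_i g_j (ξ/2) A c0`;  `N₀ = max`, `χ = min`, `n₁ = max` over the net (`Finset.sup`, `ex_pos_lb` of `RW/Export`).
Statements FROZEN (ask helper243); auxiliary lemmas: prefix `fp_aux_`.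
-/

set_option autoImplicit false

namespace Claimed.Agent.R256

open Claimed.Agent.R255 Claimed.Agent.R255.FLaw
open Classical

/-- the hypotheses of FP, structural clauses on the support only -/
structure FpHypS {Ω : Type} [Fintype Ω] {δ β' κ : Type} (P : FLaw Ω) (q : Ω → ℝ × ℝ) (t : Ω → ℝ) (D : Ω → δ) (Tg : Ω → β')
    (Qn : Ω → κ) (A d g χ : ℝ) (N n : ℕ) : Prop where
  bd : ∀ ω, P.p ω ≠ 0 → |(q ω).1| ≤ A ∧ |(q ω).2| ≤ A ∧ |t ω| ≤ A
  tag : ∀ ω ω', P.p ω ≠ 0 → P.p ω' ≠ 0 → Tg ω = Tg ω' → D ω = D ω' → icS t (N * n) ω = icS t (N * n) ω'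
  pt : ∀ ω ω', P.p ω ≠ 0 → P.p ω' ≠ 0 → Qn ω = Qn ω' → D ω = D ω' → icQ q (N * n) ω = icQ q (N * n) ω'
  time : P.pr (fun ω => ¬ IcGood P (icX q) (pair (pair (icU q t (N * n)) Tg) D) d χ n ω) ≤ χ
  slope : ∀ k < N, P.pr (fun ω =>
    ¬ IcGood P (fun j => icS t (k * n + j)) (pair (pair (icS t (k * n)) Qn) D) g χ n ω) ≤ χ
  indep : P.miC Qn Tg D ≤ χ * n * Real.log 2

/-- the name `X` joined with `D` on the support, a new symbol off the support -/
noncomputable def fpOpt {Ω : Type} [Fintype Ω] {α δ : Type} (P : FLaw Ω) (X : Ω → α) (D : Ω → δ) : Ω → Option (α × δ) :=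
  fun ω => if P.p ω ≠ 0 then some (X ω, D ω) else none

/-- a real name put to zero off the support -/
noncomputable def fpZr {Ω : Type} [Fintype Ω] {α : Type} [Zero α] (P : FLaw Ω) (x : Ω → α) : Ω → α :=
  fun ω => if P.p ω ≠ 0 then x ω else 0

theorem fp_aux_opt_iff {Ω : Type} [Fintype Ω] {α δ : Type} (P : FLaw Ω) (X : Ω → α) (D : Ω → δ) {ω ω' : Ω}
    (h : P.p ω ≠ 0) (h' : P.p ω' ≠ 0) : fpOpt P X D ω = fpOpt P X D ω' ↔ X ω = X ω' ∧ D ω = D ω' := by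
  unfold fpOpt
  rw [if_pos h, if_pos h']
  simp

theorem fp_aux_zr {Ω : Type} [Fintype Ω] {α : Type} [Zero α] (P : FLaw Ω) (x : Ω → α) {ω : Ω} (h : P.p ω ≠ 0) :
    fpZr P x ω = x ω := by
  unfold fpZr
  rw [if_pos h]

theorem fp_aux_zr' {Ω : Type} [Fintype Ω] {α : Type} [Zero α] (P : FLaw Ω) (x : Ω → α) {ω : Ω} (h : ¬ P.p ω ≠ 0) :
    fpZr P x ω = 0 := by
  unfold fpZr
  rw [if_neg h]

/-- **FP**, support form -/
theorem fp_main_s (d g ξ A : ℝ) (hd : 0 < d) (hg : 0 < g) (hξ : 0 < ξ) (hA : 1 ≤ A) :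
    ∃ N₀ : ℕ, ∀ N : ℕ, N₀ ≤ N → ∃ χ : ℝ, 0 < χ ∧ ∃ n₁ : ℕ, ∀ n : ℕ, n₁ ≤ n →
      ∀ (Ω δ β' κ : Type) [Fintype Ω] (P : FLaw Ω) (q : Ω → ℝ × ℝ) (t : Ω → ℝ) (D : Ω → δ) (Tg : Ω → β') (Qn : Ω → κ),
        FpHypS P q t D Tg Qn A d g χ N n →
        P.pr (fun ω => P.surC (icU q t (N * n)) (pair Tg D) ω < (min 1 (d + g) - ξ) * (N * n) * Real.log 2) ≤ ξ := by
  obtain ⟨N₀, H0⟩ := fp_main d g ξ A hd hg hξ hA
  refine ⟨N₀, fun N hN => ?_⟩
  obtain ⟨χ, hχ, n₁, H1⟩ := H0 N hN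
  refine ⟨χ, hχ, n₁, fun n hn Ω δ β' κ _ P q t D Tg Qn H => ?_⟩
  have hX : ∀ j ω, P.p ω ≠ 0 → icX (fpZr P q) j ω = icX q j ω := fun j ω h => by
    unfold icX; rw [fp_aux_zr P q h]
  have hQ : ∀ j ω, P.p ω ≠ 0 → icQ (fpZr P q) j ω = icQ q j ω := fun j ω h => by
    unfold icQ; rw [fp_aux_zr P q h]
  have hS : ∀ j ω, P.p ω ≠ 0 → icS (fpZr P t) j ω = icS t j ω := fun j ω h => by
    unfold icS; rw [fp_aux_zr P t h]
  have hU : ∀ j ω, P.p ω ≠ 0 → icU (fpZr P q) (fpZr P t) j ω = icU q t j ω := fun j ω h => by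
    unfold icU icW; rw [fp_aux_zr P q h, fp_aux_zr P t h]
  have hyp : FpHyp P (fpZr P q) (fpZr P t) D (fpOpt P Tg D) (fpOpt P Qn D) A d g χ N n := by
    refine ⟨?_, ?_, ?_, ?_, ?_, ?_⟩
    · intro ω
      by_cases h : P.p ω ≠ 0
      · rw [fp_aux_zr P q h, fp_aux_zr P t h]
        exact H.bd ω h
      · rw [fp_aux_zr' P q h, fp_aux_zr' P t h]
        simp only [Prod.fst_zero, Prod.snd_zero, abs_zero]
        exact ⟨by linarith, by linarith, by linarith⟩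
    · intro ω ω' he
      by_cases h : P.p ω ≠ 0 <;> by_cases h' : P.p ω' ≠ 0
      · rw [hS _ _ h, hS _ _ h']
        obtain ⟨a, b⟩ := (fp_aux_opt_iff P Tg D h h').1 he
        exact H.tag ω ω' h h' a b
      · unfold fpOpt at he
        rw [if_pos h, if_neg h'] at he
        exact absurd he (by simp)
      · unfold fpOpt at he
        rw [if_neg h, if_pos h'] at he
        exact absurd he (by simp)
      · unfold icS
        rw [fp_aux_zr' P t h, fp_aux_zr' P t h']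
    · intro ω ω' he
      by_cases h : P.p ω ≠ 0 <;> by_cases h' : P.p ω' ≠ 0
      · rw [hQ _ _ h, hQ _ _ h']
        obtain ⟨a, b⟩ := (fp_aux_opt_iff P Qn D h h').1 he
        exact H.pt ω ω' h h' a b
      · unfold fpOpt at he
        rw [if_pos h, if_neg h'] at he
        exact absurd he (by simp)
      · unfold fpOpt at he
        rw [if_neg h, if_pos h'] at he
        exact absurd he (by simp)
      · unfold icQ
        rw [fp_aux_zr' P q h, fp_aux_zr' P q h']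
    · refine le_trans (le_of_eq (ent_pr_congr P fun ω hω => ?_)) H.time
      refine not_congr (forall_congr' fun j => forall_congr' fun _ => ?_)
      rw [ent_surC_congr P (icX (fpZr P q) j) (icX q j) (pair (pair (icU (fpZr P q) (fpZr P t) (N * n)) (fpOpt P Tg D)) D)
        (pair (pair (icU q t (N * n)) Tg) D) ω (fun ω' hω' => ?_) (fun ω' hω' _ => ?_)]
      · simp only [FLaw.pair, Prod.mk.injEq, hU _ _ hω, hU _ _ hω', fp_aux_opt_iff P Tg D hω' hω]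
        tauto
      · rw [hX _ _ hω, hX _ _ hω']
    · intro k hk
      refine le_trans (le_of_eq (ent_pr_congr P fun ω hω => ?_)) (H.slope k hk)
      refine not_congr (forall_congr' fun j => forall_congr' fun _ => ?_)
      rw [ent_surC_congr P (icS (fpZr P t) (k * n + j)) (icS t (k * n + j))
        (pair (pair (icS (fpZr P t) (k * n)) (fpOpt P Qn D)) D)
        (pair (pair (icS t (k * n)) Qn) D) ω (fun ω' hω' => ?_) (fun ω' hω' _ => ?_)]
      · simp only [FLaw.pair, Prod.mk.injEq, hS _ _ hω, hS _ _ hω', fp_aux_opt_iff P Qn D hω' hω]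
        tauto
      · rw [hS _ _ hω, hS _ _ hω']
    · refine le_trans (le_of_eq ?_) H.indep
      unfold FLaw.miC
      rw [ent_congr_ker P (pair (fpOpt P Qn D) D) (pair Qn D) (fun ω ω' h h' => by
          simp only [FLaw.pair, Prod.mk.injEq, fp_aux_opt_iff P Qn D h h']; tauto),
        ent_congr_ker P (pair (fpOpt P Tg D) D) (pair Tg D) (fun ω ω' h h' => by
          simp only [FLaw.pair, Prod.mk.injEq, fp_aux_opt_iff P Tg D h h']; tauto),
        ent_congr_ker P (pair (pair (fpOpt P Qn D) (fpOpt P Tg D)) D) (pair (pair Qn Tg) D) (fun ω ω' h h' => by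
          simp only [FLaw.pair, Prod.mk.injEq, fp_aux_opt_iff P Qn D h h', fp_aux_opt_iff P Tg D h h']; tauto)]
  refine le_trans (le_of_eq (ent_pr_congr P fun ω hω => ?_)) (H1 n hn Ω δ _ _ P _ _ D _ _ hyp)
  rw [ent_surC_congr P (icU q t (N * n)) (icU (fpZr P q) (fpZr P t) (N * n)) (pair Tg D) (pair (fpOpt P Tg D) D) ω
    (fun ω' hω' => ?_) (fun ω' hω' _ => ?_)]
  · simp only [FLaw.pair, Prod.mk.injEq, fp_aux_opt_iff P Tg D hω' hω]
    tauto
  · rw [hU _ _ hω, hU _ _ hω']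

/-- the hypotheses of FP on an event `E`; all scores are those of `P` -/
structure FpHypE {Ω : Type} [Fintype Ω] {δ β' κ : Type} (P : FLaw Ω) (E : Ω → Prop) (q : Ω → ℝ × ℝ) (t : Ω → ℝ) (D : Ω → δ)
    (Tg : Ω → β') (Qn : Ω → κ) (A d g χ : ℝ) (N n : ℕ) : Prop where
  bd : ∀ ω, P.p ω ≠ 0 → E ω → |(q ω).1| ≤ A ∧ |(q ω).2| ≤ A ∧ |t ω| ≤ A
  tag : ∀ ω ω', P.p ω ≠ 0 → P.p ω' ≠ 0 → E ω → E ω' → Tg ω = Tg ω' → D ω = D ω' → icS t (N * n) ω = icS t (N * n) ω'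
  pt : ∀ ω ω', P.p ω ≠ 0 → P.p ω' ≠ 0 → E ω → E ω' → Qn ω = Qn ω' → D ω = D ω' → icQ q (N * n) ω = icQ q (N * n) ω'
  time : P.pr (fun ω => E ω ∧ ¬ IcGood P (icX q) (pair (pair (icU q t (N * n)) Tg) D) d χ n ω) ≤ χ
  slope : ∀ k < N, P.pr (fun ω => E ω ∧
    ¬ IcGood P (fun j => icS t (k * n + j)) (pair (pair (icS t (k * n)) Qn) D) g χ n ω) ≤ χ
  indep : P.miC Qn Tg D ≤ χ * n * Real.log 2

/-- Frostman points of the restricted law -/
theorem fp_aux_good_cnd {Ω : Type} [Fintype Ω] {α δ : Type} (P : FLaw Ω) (E : Ω → Prop) (hE : 0 < P.pr E) (X : ℕ → Ω → α)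
    (Y : Ω → δ) (e χ χ' t0 : ℝ) (n : ℕ) (ht : χ * n * Real.log 2 + t0 ≤ χ' * n * Real.log 2) :
    (P.cnd E).pr (fun ω => ¬ IcGood (P.cnd E) X Y e χ' n ω)
      ≤ P.pr (fun ω => E ω ∧ ¬ IcGood P X Y e χ n ω) / P.pr E + (n + 1) * (2 * Real.exp (-t0) / P.pr E) := by
  have hsub : ∀ ω, (P.cnd E).p ω ≠ 0 → ¬ IcGood (P.cnd E) X Y e χ' n ω →
      (¬ IcGood P X Y e χ n ω) ∨
      ∃ j ∈ Finset.range (n + 1), t0 < |(P.cnd E).surC (X j) Y ω - P.surC (X j) Y ω| := by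
    intro ω _ hbad
    by_contra hcon
    push Not at hcon
    obtain ⟨h1, h2⟩ := hcon
    refine hbad fun j hj => ?_
    have h3 := h1 j hj
    have h4 := (abs_le.1 (h2 j (Finset.mem_range.2 (by omega)))).1
    have e2 : (e * j - χ' * n) * Real.log 2 = e * j * Real.log 2 - χ' * n * Real.log 2 := by ring
    have e3 : (e * j - χ * n) * Real.log 2 = e * j * Real.log 2 - χ * n * Real.log 2 := by ring
    rw [e2]
    rw [e3] at h3
    linarith
  calc (P.cnd E).pr (fun ω => ¬ IcGood (P.cnd E) X Y e χ' n ω)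
      ≤ (P.cnd E).pr (fun ω => (¬ IcGood P X Y e χ n ω) ∨
          ∃ j ∈ Finset.range (n + 1), t0 < |(P.cnd E).surC (X j) Y ω - P.surC (X j) Y ω|) := ent_pr_mono _ hsub
    _ ≤ (P.cnd E).pr (fun ω => ¬ IcGood P X Y e χ n ω)
        + (P.cnd E).pr (fun ω => ∃ j ∈ Finset.range (n + 1), t0 < |(P.cnd E).surC (X j) Y ω - P.surC (X j) Y ω|) :=
        ent_pr_or_le _ _ _
    _ ≤ P.pr (fun ω => E ω ∧ ¬ IcGood P X Y e χ n ω) / P.pr E
        + ∑ _j ∈ Finset.range (n + 1), 2 * Real.exp (-t0) / P.pr E := by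
        refine add_le_add (le_of_eq (ent_cnd_pr P E hE _)) ((ent_pr_exists_le _ _ _).trans
          (Finset.sum_le_sum fun j _ => ic_restr P E hE (X j) Y t0))
    _ = P.pr (fun ω => E ω ∧ ¬ IcGood P X Y e χ n ω) / P.pr E + (n + 1) * (2 * Real.exp (-t0) / P.pr E) := by
        rw [Finset.sum_const, Finset.card_range, nsmul_eq_mul]
        push_cast
        ring

/-- **FP on an event** of mass `≥ c0` -/
theorem fp_ev (d g ξ A c0 : ℝ) (hd : 0 < d) (hg : 0 < g) (hξ : 0 < ξ) (hA : 1 ≤ A) (hc0 : 0 < c0) :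
    ∃ N₀ : ℕ, ∀ N : ℕ, N₀ ≤ N → ∃ χ : ℝ, 0 < χ ∧ ∃ n₁ : ℕ, ∀ n : ℕ, n₁ ≤ n →
      ∀ (Ω δ β' κ : Type) [Fintype Ω] (P : FLaw Ω) (E : Ω → Prop) (q : Ω → ℝ × ℝ) (t : Ω → ℝ) (D : Ω → δ) (Tg : Ω → β')
        (Qn : Ω → κ), c0 ≤ P.pr E → FpHypE P E q t D Tg Qn A d g χ N n →
        P.pr (fun ω => E ω ∧ P.surC (icU q t (N * n)) (pair Tg D) ω < (min 1 (d + g) - ξ) * (N * n) * Real.log 2) ≤ ξ := by
  have hL : 0 < Real.log 2 := Real.log_pos one_lt_two
  obtain ⟨N₀, H0⟩ := fp_main_s d g (ξ / 2) A hd hg (half_pos hξ) hA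
  refine ⟨max N₀ 1, fun N hN => ?_⟩
  have hN1 : 1 ≤ N := (le_max_right _ _).trans hN
  obtain ⟨χ', hχ', n₁', H1⟩ := H0 N ((le_max_left _ _).trans hN)
  obtain ⟨c₁, hc₁⟩ : ∃ c₁ : ℝ, c₁ = χ' * Real.log 2 / 4 := ⟨_, rfl⟩
  obtain ⟨c₂, hc₂⟩ : ∃ c₂ : ℝ, c₂ = ξ * Real.log 2 / 2 := ⟨_, rfl⟩
  have hc₁0 : 0 < c₁ := by rw [hc₁]; positivity
  have hc₂0 : 0 < c₂ := by rw [hc₂]; positivity
  obtain ⟨m₁, hm₁⟩ := exists_nat_ge (10 / (c₁ ^ 2 * (c0 * χ' / 2)))
  obtain ⟨m₂, hm₂⟩ := exists_nat_ge (10 / (c₂ ^ 2 * (c0 * ξ / 2)))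
  obtain ⟨m₃, hm₃⟩ := exists_nat_ge (4 / (3 * c0 * χ'))
  refine ⟨c0 * χ' / 4, by positivity, max (max n₁' 1) (max m₁ (max m₂ m₃)),
    fun n hn Ω δ β' κ _ P E q t D Tg Qn hPE H => ?_⟩
  have hn₁' : n₁' ≤ n := ((le_max_left _ _).trans (le_max_left _ _)).trans hn
  have hn1 : 1 ≤ n := ((le_max_right _ _).trans (le_max_left _ _)).trans hn
  have hnm₁ : (m₁ : ℝ) ≤ n := by exact_mod_cast ((le_max_left _ _).trans (le_max_right _ _)).trans hn
  have hnm₂ : (m₂ : ℝ) ≤ n := by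
    exact_mod_cast ((le_max_left _ _).trans ((le_max_right _ _).trans (le_max_right _ _))).trans hn
  have hnm₃ : (m₃ : ℝ) ≤ n := by
    exact_mod_cast ((le_max_right _ _).trans ((le_max_right _ _).trans (le_max_right _ _))).trans hn
  have hn0 : (0 : ℝ) < n := by exact_mod_cast hn1
  have hE : 0 < P.pr E := hc0.trans_le hPE
  have hc01 : c0 ≤ 1 := hPE.trans (ent_pr_le_one P E)
  -- numerics
  have ha := fp_aux_exp_small hc₁0 (show 0 < c0 * χ' / 2 by positivity) hn1 (hm₁.trans hnm₁)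
  have hc := fp_aux_exp_small hc₂0 (show 0 < c0 * ξ / 2 by positivity) hn1 (hm₂.trans hnm₂)
  have hdiv : ∀ x : ℝ, 0 ≤ x → x / P.pr E ≤ x / c0 := fun x hx => div_le_div_of_nonneg_left hx hc0 hPE
  have hgood : ∀ {α γ' : Type} (X : ℕ → Ω → α) (Y : Ω → γ') (e : ℝ),
      P.pr (fun ω => E ω ∧ ¬ IcGood P X Y e (c0 * χ' / 4) n ω) ≤ c0 * χ' / 4 →
      (P.cnd E).pr (fun ω => ¬ IcGood (P.cnd E) X Y e χ' n ω) ≤ χ' := by
    intro α γ' X Y e h
    have h1 := fp_aux_good_cnd P E hE X Y e (c0 * χ' / 4) χ' (c₁ * n) n (by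
      rw [hc₁]
      have : c0 * χ' / 4 * n * Real.log 2 ≤ 1 * χ' / 4 * n * Real.log 2 := by gcongr
      nlinarith)
    have h2 : P.pr (fun ω => E ω ∧ ¬ IcGood P X Y e (c0 * χ' / 4) n ω) / P.pr E ≤ χ' / 4 := by
      refine (hdiv _ (ent_pr_nonneg P _)).trans ?_
      rw [div_le_iff₀ hc0]
      linarith
    have h3 : ((n : ℝ) + 1) * (2 * Real.exp (-(c₁ * n)) / P.pr E) ≤ χ' / 2 := by
      have e1 : ((n : ℝ) + 1) * (2 * Real.exp (-(c₁ * n)) / P.pr E)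
          = ((2 * (n : ℝ) + 2) * Real.exp (-(c₁ * n))) / P.pr E := by ring
      rw [e1]
      refine (hdiv _ (by positivity)).trans ?_
      rw [div_le_iff₀ hc0]
      have : (2 * (n : ℝ) + 2) * Real.exp (-(c₁ * n)) ≤ (2 * (n : ℝ) + 3) * Real.exp (-(c₁ * n)) := by
        gcongr
        linarith
      linarith
    linarith
  have hsupp : ∀ ω, (P.cnd E).p ω ≠ 0 → E ω ∧ P.p ω ≠ 0 := fun ω h => (ent_cnd_supp P E hE).1 h
  have hyp : FpHypS (P.cnd E) q t D Tg Qn A d g χ' N n := by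
    refine ⟨fun ω h => H.bd ω (hsupp ω h).2 (hsupp ω h).1,
      fun ω ω' h h' => H.tag ω ω' (hsupp ω h).2 (hsupp ω' h').2 (hsupp ω h).1 (hsupp ω' h').1,
      fun ω ω' h h' => H.pt ω ω' (hsupp ω h).2 (hsupp ω' h').2 (hsupp ω h).1 (hsupp ω' h').1,
      hgood _ _ _ H.time, fun k hk => hgood _ _ _ (H.slope k hk), ?_⟩
    refine (ic_restr_mi P E hE Qn Tg D).trans ?_
    have h0 : 0 ≤ P.miC Qn Tg D + Real.log 2 := add_nonneg (ent_miC_nonneg P _ _ _) hL.le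
    refine (hdiv _ h0).trans ?_
    rw [div_le_iff₀ hc0]
    have h1 := H.indep
    have h2 : 4 / (3 * c0 * χ') ≤ n := hm₃.trans hnm₃
    rw [div_le_iff₀ (by positivity)] at h2
    have h3 : 4 * Real.log 2 ≤ n * (3 * c0 * χ') * Real.log 2 := mul_le_mul_of_nonneg_right h2 hL.le
    nlinarith
  have hmain := H1 n hn₁' Ω δ β' κ (P.cnd E) q t D Tg Qn hyp
  -- back to `P`
  have hback : P.pr (fun ω => E ω ∧ P.surC (icU q t (N * n)) (pair Tg D) ω < (min 1 (d + g) - ξ) * (N * n) * Real.log 2)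
      ≤ (P.cnd E).pr (fun ω => P.surC (icU q t (N * n)) (pair Tg D) ω < (min 1 (d + g) - ξ) * (N * n) * Real.log 2) := by
    rw [ent_cnd_pr P E hE, le_div_iff₀ hE]
    have := ent_pr_nonneg P (fun ω => E ω ∧ P.surC (icU q t (N * n)) (pair Tg D) ω < (min 1 (d + g) - ξ) * (N * n) * Real.log 2)
    have h1 := ent_pr_le_one P E
    nlinarith
  have hNr : (1 : ℝ) ≤ N := by exact_mod_cast hN1
  have hsub : ∀ ω, (P.cnd E).p ω ≠ 0 →
      P.surC (icU q t (N * n)) (pair Tg D) ω < (min 1 (d + g) - ξ) * (N * n) * Real.log 2 →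
      (c₂ * n < |(P.cnd E).surC (icU q t (N * n)) (pair Tg D) ω - P.surC (icU q t (N * n)) (pair Tg D) ω|) ∨
      (P.cnd E).surC (icU q t (N * n)) (pair Tg D) ω < (min 1 (d + g) - ξ / 2) * (N * n) * Real.log 2 := by
    intro ω _ h
    by_contra hcon
    push Not at hcon
    obtain ⟨h1, h2⟩ := hcon
    have h3 := (abs_le.1 h1).2
    have h4 : c₂ * n ≤ ξ / 2 * (N * n) * Real.log 2 := by
      rw [hc₂]
      have : ξ * Real.log 2 / 2 * n * 1 ≤ ξ * Real.log 2 / 2 * n * N := by gcongr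
      nlinarith
    have e1 : (min 1 (d + g) - ξ / 2) * (N * n) * Real.log 2
        = (min 1 (d + g) - ξ) * (N * n) * Real.log 2 + ξ / 2 * (N * n) * Real.log 2 := by ring
    rw [e1] at h2
    linarith
  have hrest : (P.cnd E).pr (fun ω =>
      c₂ * n < |(P.cnd E).surC (icU q t (N * n)) (pair Tg D) ω - P.surC (icU q t (N * n)) (pair Tg D) ω|) ≤ ξ / 2 := by
    refine (ic_restr P E hE _ _ _).trans ?_
    refine (hdiv _ (by positivity)).trans ?_
    rw [div_le_iff₀ hc0]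
    have : 2 * Real.exp (-(c₂ * n)) ≤ (2 * (n : ℝ) + 3) * Real.exp (-(c₂ * n)) := by
      gcongr
      linarith
    linarith
  calc P.pr (fun ω => E ω ∧ P.surC (icU q t (N * n)) (pair Tg D) ω < (min 1 (d + g) - ξ) * (N * n) * Real.log 2)
      ≤ (P.cnd E).pr (fun ω => P.surC (icU q t (N * n)) (pair Tg D) ω < (min 1 (d + g) - ξ) * (N * n) * Real.log 2) := hback
    _ ≤ (P.cnd E).pr (fun ω =>
          (c₂ * n < |(P.cnd E).surC (icU q t (N * n)) (pair Tg D) ω - P.surC (icU q t (N * n)) (pair Tg D) ω|) ∨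
          (P.cnd E).surC (icU q t (N * n)) (pair Tg D) ω < (min 1 (d + g) - ξ / 2) * (N * n) * Real.log 2) :=
        ent_pr_mono _ hsub
    _ ≤ ξ / 2 + ξ / 2 := (ent_pr_or_le _ _ _).trans (add_le_add hrest hmain)
    _ = ξ := by ring

theorem fp_aux_good_mono {Ω : Type} [Fintype Ω] {α δ : Type} {P : FLaw Ω} {X : ℕ → Ω → α} {D : Ω → δ} {e e' η η' : ℝ} {n : ℕ}
    {ω : Ω} (he : e' ≤ e) (hη : η ≤ η') (h : IcGood P X D e η n ω) : IcGood P X D e' η' n ω := by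
  intro k hk
  refine le_trans ?_ (h k hk)
  have hL : 0 ≤ Real.log 2 := Real.log_nonneg (by norm_num)
  refine mul_le_mul_of_nonneg_right ?_ hL
  have h1 : e' * k ≤ e * k := mul_le_mul_of_nonneg_right he (Nat.cast_nonneg k)
  have h2 : η * n ≤ η' * n := mul_le_mul_of_nonneg_right hη (Nat.cast_nonneg n)
  linarith

theorem fp_aux_hypE_mono {Ω : Type} [Fintype Ω] {δ β' κ : Type} {P : FLaw Ω} {E : Ω → Prop} {q : Ω → ℝ × ℝ} {t : Ω → ℝ}
    {D : Ω → δ} {Tg : Ω → β'} {Qn : Ω → κ} {A d g χ d' g' χ' : ℝ} {N n : ℕ} (hd : d' ≤ d) (hg : g' ≤ g) (hχ : χ ≤ χ')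
    (H : FpHypE P E q t D Tg Qn A d g χ N n) : FpHypE P E q t D Tg Qn A d' g' χ' N n where
  bd := H.bd
  tag := H.tag
  pt := H.pt
  time := by
    refine le_trans (ent_pr_mono P fun ω _ h => ?_) (H.time.trans hχ)
    exact ⟨h.1, fun hg' => h.2 (fp_aux_good_mono hd hχ hg')⟩
  slope := by
    intro k hk
    refine le_trans (ent_pr_mono P fun ω _ h => ?_) ((H.slope k hk).trans hχ)
    exact ⟨h.1, fun hg' => h.2 (fp_aux_good_mono hg hχ hg')⟩
  indep := by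
    refine H.indep.trans ?_
    have hL : 0 ≤ Real.log 2 := Real.log_nonneg (by norm_num)
    exact mul_le_mul_of_nonneg_right (mul_le_mul_of_nonneg_right hχ (Nat.cast_nonneg n)) hL

/-- the net point below `x ≥ x0` -/
theorem fp_aux_net (x0 x ξ : ℝ) (hξ : 0 < ξ) (hx : x0 ≤ x) (K : ℕ) (hK : 1 ≤ K * (ξ / 4)) :
    ∃ i ≤ K, x0 + i * (ξ / 4) ≤ x ∧ (x < x0 + i * (ξ / 4) + ξ / 4 ∨ x0 + 1 ≤ x0 + i * (ξ / 4)) := by
  have h4 : 0 < ξ / 4 := by positivity
  by_cases hbig : x0 + K * (ξ / 4) ≤ x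
  · exact ⟨K, le_rfl, hbig, Or.inr (by linarith)⟩
  · push Not at hbig
    set i : ℕ := ⌊(x - x0) / (ξ / 4)⌋₊ with hi
    have h0 : 0 ≤ (x - x0) / (ξ / 4) := div_nonneg (by linarith) h4.le
    have h1 : (i : ℝ) ≤ (x - x0) / (ξ / 4) := Nat.floor_le h0
    have h2 : (x - x0) / (ξ / 4) < i + 1 := Nat.lt_floor_add_one _
    rw [le_div_iff₀ h4] at h1
    rw [div_lt_iff₀ h4] at h2
    refine ⟨i, ?_, by linarith, Or.inl (by linarith)⟩
    by_contra hcon
    push Not at hcon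
    have : (K : ℝ) + 1 ≤ i := by exact_mod_cast hcon
    nlinarith

/-- **FP on an event, uniform in the exponents** -/
theorem fp_ev_u (d0 g0 ξ A c0 : ℝ) (hd : 0 < d0) (hg : 0 < g0) (hξ : 0 < ξ) (hA : 1 ≤ A) (hc0 : 0 < c0) :
    ∃ N₀ : ℕ, ∀ N : ℕ, N₀ ≤ N → ∃ χ : ℝ, 0 < χ ∧ ∃ n₁ : ℕ, ∀ n : ℕ, n₁ ≤ n → ∀ d g : ℝ, d0 ≤ d → g0 ≤ g →
      ∀ (Ω δ β' κ : Type) [Fintype Ω] (P : FLaw Ω) (E : Ω → Prop) (q : Ω → ℝ × ℝ) (t : Ω → ℝ) (D : Ω → δ) (Tg : Ω → β')
        (Qn : Ω → κ), c0 ≤ P.pr E → FpHypE P E q t D Tg Qn A d g χ N n →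
        P.pr (fun ω => E ω ∧ P.surC (icU q t (N * n)) (pair Tg D) ω < (min 1 (d + g) - ξ) * (N * n) * Real.log 2) ≤ ξ := by
  have h4 : 0 < ξ / 4 := by positivity
  set K : ℕ := ⌈4 / ξ⌉₊ with hK
  have hK1 : 1 ≤ K * (ξ / 4) := by
    have : 4 / ξ ≤ K := Nat.le_ceil _
    rw [div_le_iff₀ hξ] at this
    linarith
  set a : ℕ → ℝ := fun i => d0 + i * (ξ / 4) with ha
  set b : ℕ → ℝ := fun j => g0 + j * (ξ / 4) with hb
  have hapos : ∀ i, 0 < a i := fun i => by simp only [ha]; positivity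
  have hbpos : ∀ j, 0 < b j := fun j => by simp only [hb]; positivity
  have H := fun ij : ℕ × ℕ => fp_ev (a ij.1) (b ij.2) (ξ / 2) A c0 (hapos _) (hbpos _) (by positivity) hA hc0
  choose N0 hN0 using H
  set net : Finset (ℕ × ℕ) := Finset.range (K + 1) ×ˢ Finset.range (K + 1) with hnet
  have hne : net.Nonempty := ⟨(0, 0), by simp [hnet]⟩
  refine ⟨net.sup N0, fun N hN => ?_⟩
  have H2 : ∀ ij, ij ∈ net → _ := fun ij hij => hN0 ij N ((Finset.le_sup hij).trans hN)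
  choose! χf hχpos n1f hΦ using H2
  obtain ⟨ij0, hij0, hmin⟩ := Finset.exists_min_image net χf hne
  refine ⟨χf ij0, hχpos ij0 hij0, net.sup n1f, ?_⟩
  intro n hn d g hd' hg' Ω δ β' κ _ P E q t D Tg Qn hE Hyp
  obtain ⟨i, hiK, hi1, hi2⟩ := fp_aux_net d0 d ξ hξ hd' K hK1
  obtain ⟨j, hjK, hj1, hj2⟩ := fp_aux_net g0 g ξ hξ hg' K hK1
  have hmem : (i, j) ∈ net := by
    simp only [hnet, Finset.mem_product, Finset.mem_range]
    omega
  have Hyp' : FpHypE P E q t D Tg Qn A (a i) (b j) (χf (i, j)) N n := fp_aux_hypE_mono hi1 hj1 (hmin _ hmem) Hyp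
  have hmain := hΦ (i, j) hmem n ((Finset.le_sup hmem).trans hn) Ω δ β' κ P E q t D Tg Qn hE Hyp'
  have hthr : min 1 (d + g) - ξ ≤ min 1 (a i + b j) - ξ / 2 := by
    have hai : a i = d0 + i * (ξ / 4) := rfl
    have hbj : b j = g0 + j * (ξ / 4) := rfl
    have h1 : min 1 (d + g) ≤ 1 := min_le_left _ _
    have h2 : min 1 (d + g) ≤ d + g := min_le_right _ _
    have : min 1 (d + g) - ξ / 2 ≤ min 1 (a i + b j) := by
      refine le_min (by linarith) ?_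
      rcases hi2 with hi2 | hi2
      · rcases hj2 with hj2 | hj2
        · rw [hai, hbj]; linarith
        · have := hapos i
          rw [hbj]; linarith
      · have := hbpos j
        rw [hai]; linarith
    linarith
  refine le_trans (ent_pr_mono P fun ω _ h => ⟨h.1, lt_of_lt_of_le h.2 ?_⟩) (hmain.trans (by linarith))
  have hL : 0 ≤ Real.log 2 := Real.log_nonneg (by norm_num)
  have hNn : (0 : ℝ) ≤ (N : ℝ) * n := by positivity
  exact mul_le_mul_of_nonneg_right (mul_le_mul_of_nonneg_right hthr hNn) hL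

/-- two-parameter version of `fp_mesh`: tolerance `χ` and probability `p` are separate -/
theorem fp_mesh2 {Ω : Type} [Fintype Ω] {α δ : Type} (P : FLaw Ω) (X : ℕ → Ω → α) (D : Ω → δ) {e χ p : ℝ} {R m : ℕ} (he : 0 ≤ e)
    (hR : 0 < R) (hX : ∀ j ω ω', X (j + 1) ω = X (j + 1) ω' → X j ω = X j ω')
    (h : ∀ i ≤ R, P.pr (fun ω => P.surC (X (i * m)) D ω < (e * (i * m) - χ * (R * m)) * Real.log 2) ≤ p) :
    P.pr (fun ω => ¬ IcGood P X D e (χ + e / R) (R * m) ω) ≤ (R + 1) * p := by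
  have hl2 : 0 < Real.log 2 := Real.log_pos one_lt_two
  have hR0 : (0 : ℝ) < R := by exact_mod_cast hR
  have hnest : ∀ k n, k ≤ n → ∀ ω ω', X n ω = X n ω' → X k ω = X k ω' := by
    intro k n hkn
    induction n, hkn using Nat.le_induction with
    | base => exact fun _ _ h => h
    | succ n _ ih => exact fun ω ω' h => ih ω ω' (hX n ω ω' h)
  have h1 : P.pr (fun ω => ¬ IcGood P X D e (χ + e / R) (R * m) ω)
      ≤ P.pr (fun ω => ∃ i ∈ Finset.range (R + 1),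
          P.surC (X (i * m)) D ω < (e * (i * m) - χ * (R * m)) * Real.log 2) := by
    refine ent_pr_mono P fun ω hω hbad => ?_
    by_contra hcon
    push Not at hcon
    refine hbad fun k hk => ?_
    have hkb : k / m * m ≤ k := Nat.div_mul_le_self k m
    have hkb' : k ≤ k / m * m + m := by
      rcases Nat.eq_zero_or_pos m with hb | hb
      · subst hb; simpa using hk
      · have h2 := Nat.div_add_mod k m
        have h3 := Nat.mod_lt k hb
        rw [mul_comm] at h2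
        omega
    have hjN : k / m ≤ R := by
      rcases Nat.eq_zero_or_pos m with hb | hb
      · subst hb; simp
      · exact Nat.div_le_of_le_mul (by rw [mul_comm]; exact hk)
    have h4 := hcon (k / m) (Finset.mem_range.2 (Nat.lt_succ_of_le hjN))
    have h5 : P.surC (X (k / m * m)) D ω ≤ P.surC (X k) D ω := by
      rw [ent_surC_eq_sub P _ _ hω, ent_surC_eq_sub P _ _ hω]
      have h6 : P.fib (pair (X k) D) ω ≤ P.fib (pair (X (k / m * m)) D) ω := by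
        refine ent_fib_mono P _ _ ω fun ω' _ h' => ?_
        simp only [FLaw.pair, Prod.mk.injEq] at h' ⊢
        exact ⟨hnest _ _ hkb _ _ h'.1, h'.2⟩
      have h7 := Real.log_le_log (ent_fib_pos P (pair (X k) D) hω) h6
      linarith
    refine le_trans ?_ (h4.trans h5)
    refine mul_le_mul_of_nonneg_right ?_ hl2.le
    have h6 : (k : ℝ) ≤ ((k / m : ℕ) : ℝ) * m + m := by exact_mod_cast hkb'
    have h7 : e * (k : ℝ) ≤ e * (((k / m : ℕ) : ℝ) * m + m) := mul_le_mul_of_nonneg_left h6 he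
    have h8 : (χ + e / R) * ((R * m : ℕ) : ℝ) = χ * (R * m) + e * m := by
      push_cast
      field_simp
    rw [h8]
    linarith
  refine h1.trans ((ent_pr_exists_le P _ _).trans ?_)
  refine (Finset.sum_le_sum fun i hi => h i (Nat.lt_succ_iff.1 (Finset.mem_range.1 hi))).trans ?_
  simp

/-- **FP, entropy form, support form, uniform in the exponents** -/
theorem fp_ent_u (d0 g0 ξ A : ℝ) (hd : 0 < d0) (hg : 0 < g0) (hξ : 0 < ξ) (hA : 1 ≤ A) :
    ∃ N₀ : ℕ, ∀ N : ℕ, N₀ ≤ N → ∃ χ : ℝ, 0 < χ ∧ ∃ n₁ : ℕ, ∀ n : ℕ, n₁ ≤ n → ∀ d g : ℝ, d0 ≤ d → g0 ≤ g →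
      ∀ (Ω δ β' κ : Type) [Fintype Ω] (P : FLaw Ω) (q : Ω → ℝ × ℝ) (t : Ω → ℝ) (D : Ω → δ) (Tg : Ω → β') (Qn : Ω → κ),
        FpHypS P q t D Tg Qn A d g χ N n →
        (min 1 (d + g) - ξ) * (N * n) * Real.log 2 ≤ P.entC (icU q t (N * n)) (pair Tg D) := by
  have hL : 0 < Real.log 2 := Real.log_pos one_lt_two
  obtain ⟨N₀, H₀⟩ := fp_ev_u d0 g0 (ξ / 2) A 1 hd hg (by positivity) hA one_pos
  refine ⟨N₀, fun N hN => ?_⟩
  obtain ⟨χ, hχ, n₁, H₁⟩ := H₀ N hN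
  refine ⟨χ, hχ, n₁, fun n hn d g hd' hg' Ω δ β' κ _ P q t D Tg Qn H => ?_⟩
  have HE : FpHypE P (fun _ => True) q t D Tg Qn A d g χ N n :=
    { bd := fun ω hω _ => H.bd ω hω
      tag := fun ω ω' h h' _ _ => H.tag ω ω' h h'
      pt := fun ω ω' h h' _ _ => H.pt ω ω' h h'
      time := le_trans (ent_pr_mono P fun ω _ h => h.2) H.time
      slope := fun k hk => le_trans (ent_pr_mono P fun ω _ h => h.2) (H.slope k hk)
      indep := H.indep }
  have hpr0 := H₁ n hn d g hd' hg' Ω δ β' κ P (fun _ => True) q t D Tg Qn (by rw [ent_pr_true]) HE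
  have hpr : P.pr (fun ω => P.surC (icU q t (N * n)) (pair Tg D) ω < (min 1 (d + g) - ξ / 2) * (N * n) * Real.log 2) ≤ ξ / 2 :=
    le_trans (ent_pr_mono P fun ω _ h => ⟨trivial, h⟩) hpr0
  have hy : 0 ≤ ((N : ℝ) * n) * Real.log 2 := by positivity
  have hent := ent_entC_nonneg P (icU q t (N * n)) (pair Tg D)
  have hthr1 : min 1 (d + g) ≤ 1 := min_le_left _ _
  by_cases hcase : min 1 (d + g) ≤ ξ
  · refine le_trans ?_ hent
    rw [mul_assoc]
    exact mul_nonpos_of_nonpos_of_nonneg (by linarith) hy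
  push Not at hcase
  have h1 := ent_ev_ge_of_bad P (f := P.surC (icU q t (N * n)) (pair Tg D))
    (fun ω => P.surC (icU q t (N * n)) (pair Tg D) ω < (min 1 (d + g) - ξ / 2) * (N * n) * Real.log 2)
    (c := (min 1 (d + g) - ξ / 2) * (N * n) * Real.log 2) (M := 0)
    (fun ω _ h => not_lt.1 h) (fun ω hω _ => ent_surC_nonneg P _ _ hω)
  rw [← ent_entC_eq_ev, zero_mul, add_zero] at h1
  refine le_trans ?_ h1
  have hv : 0 ≤ (min 1 (d + g) - ξ / 2) * (N * n) * Real.log 2 := by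
    rw [mul_assoc]
    exact mul_nonneg (by linarith) hy
  refine le_trans ?_ (mul_le_mul_of_nonneg_left (show 1 - ξ / 2 ≤ _ by linarith) hv)
  have e1 : (min 1 (d + g) - ξ) * (N * n) * Real.log 2 = (min 1 (d + g) - ξ) * ((N * n) * Real.log 2) := by ring
  have e2 : (min 1 (d + g) - ξ / 2) * (N * n) * Real.log 2 * (1 - ξ / 2)
      = ((min 1 (d + g) - ξ / 4 - ξ / 4) * (1 - ξ / 2)) * ((N * n) * Real.log 2) := by ring
  rw [e1, e2]
  exact mul_le_mul_of_nonneg_right (fp_aux_thr hξ hcase hthr1 le_rfl) hy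

/-- **FP on a mesh**: `N` windows of `R` mesh steps of `b` bits; tolerance `χ` (before `R`), probability `p` (after `R`); uniform in `d ≥ d0`, `g ≥ g0` (both `≤ 1`). -/
theorem fp_mesh_u (d0 g0 ξ A : ℝ) (hd : 0 < d0) (hg : 0 < g0) (hξ : 0 < ξ) (hA : 1 ≤ A) :
    ∃ N : ℕ, 0 < N ∧ ∃ χ : ℝ, 0 < χ ∧ ∃ R₀ : ℕ, ∀ R : ℕ, R₀ ≤ R → ∃ p : ℝ, 0 < p ∧ ∃ b₀ : ℕ, ∀ b : ℕ, b₀ ≤ b →
      ∀ d g : ℝ, d0 ≤ d → d ≤ 1 → g0 ≤ g → g ≤ 1 →
      ∀ (Ω δ β' κ : Type) [Fintype Ω] (P : FLaw Ω) (q : Ω → ℝ × ℝ) (t : Ω → ℝ) (D : Ω → δ) (Tg : Ω → β') (Qn : Ω → κ),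
        IcBd A q t → (∀ ω ω', Tg ω = Tg ω' → t ω = t ω') → (∀ ω ω', Qn ω = Qn ω' → q ω = q ω') →
        (∀ u ≤ R, P.pr (fun ω => P.surC (icX q (u * b)) (pair (pair (icU q t (N * (R * b))) Tg) D) ω
            < (d * u - χ * R) * b * Real.log 2) ≤ p) →
        (∀ w < N, ∀ u ≤ R, P.pr (fun ω => P.surC (icS t (w * (R * b) + u * b)) (pair (pair (icS t (w * (R * b))) Qn) D) ω
            < (g * u - χ * R) * b * Real.log 2) ≤ p) →
        P.miC Qn Tg D ≤ χ * (R * b) * Real.log 2 →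
        (min 1 (d + g) - ξ) * (N * (R * b)) * Real.log 2 ≤ P.entC (icU q t (N * (R * b))) (pair Tg D) := by
  have hL : 0 < Real.log 2 := Real.log_pos one_lt_two
  obtain ⟨N₀, H₀⟩ := fp_ent_u d0 g0 ξ A hd hg hξ hA
  obtain ⟨χF, hχF, n₁, H₁⟩ := H₀ (max N₀ 1) (le_max_left _ _)
  refine ⟨max N₀ 1, lt_of_lt_of_le one_pos (le_max_right _ _), χF / 2, by positivity, ⌈2 / χF⌉₊ + 1, fun R hR => ?_⟩
  have hR1 : 0 < R := lt_of_lt_of_le (Nat.succ_pos _) hR
  have hR0 : (0 : ℝ) < R := by exact_mod_cast hR1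
  have hRχ : 1 / (R : ℝ) ≤ χF / 2 := by
    have h1 : 2 / χF ≤ (R : ℝ) := by
      have h2 : 2 / χF ≤ (⌈2 / χF⌉₊ : ℝ) := Nat.le_ceil _
      have h3 : ((⌈2 / χF⌉₊ + 1 : ℕ) : ℝ) ≤ R := by exact_mod_cast hR
      push_cast at h3
      linarith
    rw [div_le_iff₀ hχF] at h1
    rw [div_le_iff₀ hR0]
    linarith
  refine ⟨χF / (R + 1), by positivity, n₁, fun b hb d g hd' hd1 hg' hg1 Ω δ β' κ _ P q t D Tg Qn hbd hTg hQn hT hS hI => ?_⟩
  have hn : n₁ ≤ R * b := hb.trans (Nat.le_mul_of_pos_left b hR1)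
  have hp : ((R : ℝ) + 1) * (χF / (R + 1)) = χF := by field_simp
  have hcast : ((R * b : ℕ) : ℝ) = (R : ℝ) * b := by push_cast; ring
  have key : ∀ {α γ : Type} (X : ℕ → Ω → α) (Y : Ω → γ) (e : ℝ), 0 ≤ e → e ≤ 1 →
      (∀ j ω ω', X (j + 1) ω = X (j + 1) ω' → X j ω = X j ω') →
      (∀ u ≤ R, P.pr (fun ω => P.surC (X (u * b)) Y ω < (e * u - χF / 2 * R) * b * Real.log 2) ≤ χF / (R + 1)) →
      P.pr (fun ω => ¬ IcGood P X Y e χF (R * b) ω) ≤ χF := by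
    intro α γ X Y e he0 he1 hX h
    have h2 := fp_mesh2 P X Y (e := e) (χ := χF / 2) (p := χF / (R + 1)) (R := R) (m := b) he0 hR1 hX (fun i hi => by
      have e3 : (e * ((i : ℝ) * b) - χF / 2 * ((R : ℝ) * b)) * Real.log 2 = (e * i - χF / 2 * R) * b * Real.log 2 := by ring
      rw [e3]
      exact h i hi)
    rw [hp] at h2
    have he3 : χF / 2 + e / R ≤ χF := by
      have : e / R ≤ 1 / R := div_le_div_of_nonneg_right he1 hR0.le
      linarith
    have hsub : ∀ ω, P.p ω ≠ 0 → ¬ IcGood P X Y e χF (R * b) ω → ¬ IcGood P X Y e (χF / 2 + e / R) (R * b) ω :=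
      fun ω _ hbad hgood => hbad (fp_aux_good_mono le_rfl he3 hgood)
    exact le_trans (ent_pr_mono P hsub) h2
  have Hyp : FpHypS P q t D Tg Qn A d g χF (max N₀ 1) (R * b) :=
    { bd := fun ω _ => hbd ω
      tag := fun ω ω' _ _ h _ => by unfold icS; rw [hTg ω ω' h]
      pt := fun ω ω' _ _ h _ => by unfold icQ; rw [hQn ω ω' h]
      time := key (icX q) _ d (hd.le.trans hd') hd1 (fun j ω ω' h => ic_cell_nest (Nat.le_succ j) h) hT
      slope := fun k hk => key (fun j => icS t (k * (R * b) + j)) _ g (hg.le.trans hg') hg1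
        (fun j ω ω' h => ic_cell_nest (Nat.le_succ _) h) (hS k hk)
      indep := by
        refine hI.trans ?_
        rw [hcast]
        have : 0 ≤ (R : ℝ) * b * Real.log 2 := by positivity
        nlinarith }
  have := H₁ (R * b) hn d g hd' hg' Ω δ β' κ P q t D Tg Qn Hyp
  rw [hcast] at this
  exact this

end Claimed.Agent.R256
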