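import Claimed.Agent.R256.Fp.Defs
import Claimed.Agent.R256.Inc.CoreA

/-!
# Row 256, unit FP, file 3: the geometry of one window (exact identities, bounded lists).        (architect helper243)

`m` = level of the tube, `n` = bits of the window, `M` = finest level.   `T = fpT t m`, `U₀ = fpU q t m`, `w = icW q t`:  `T ≤ t < T + 2^-m`, `U₀ ≤ w < U₀ + 2^-m`  (`ic_cell_le`, `ic_cell_lt` of `Inc/CoreA`).
IDENTITIES.  `q₂ - T q₁ - U₀ = (w - U₀) + (t - T) q₁`;  floor of (real + integer) (`Int.floor_sub_intCast` etc.), `2^(m+j) = 2^m 2^j`.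
LISTS.  General tool: if two reals differ by `≤ ℓ 2^-k` their cells of level `k` differ by `≤ ℓ + 1`; so a family of reals of diameter `≤ ℓ 2^-k` has its cells in `Finset.Icc z (z + ⌈ℓ⌉ + 1)`-type sets, `≤ ℓ + 3` values
 (prove ONE auxiliary lemma `fp_aux_list` : `NVal` from a diameter bound, and use it four times).   Diameters (two sample points with the same conditioning), `h = 2^-M`:
 * `fp_list_tube` : `|w - w'| ≤ |q₂-q₂'| + |t| |q₁-q₁'| + |t-t'| |q₁'| ≤ h + A h + A 2^-m ≤ (2A+1) 2^-m`.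
 * `fp_list_cell` : first coordinate: cell of level `n ≤ M` is determined (`ic_cell_nest`);  second: `T, U₀` fixed, `|T| ≤ A + 1`, variation `≤ (h + (A+1) h) 2^m ≤ (A+2) 2^-n`.
 * `fp_list_fib`  : `y = w' + t' x`, `w'` in a cell of level `n`, `t' = fpS ∈ [0,1)` in a cell of level `n` (tag + `fp_icS`), `x` in a cell of level `n`, `|x| ≤ A`: variation `≤ (A+2) 2^-n`.
 * `fp_list_proj` : `w' = y - t' x`: the same.
 * `fp_ent_col`   : `⌊q₁ 2^n⌋ ∈ [-A 2^n - 1, A 2^n]`, `≤ (2A+2) 2^n` values, `ent_le_log_card`.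
Statements FROZEN (ask helper243); auxiliary lemmas: prefix `fp_aux_`.
-/

set_option autoImplicit false

namespace Claimed.Agent.R256

open Claimed.Agent.R255 Claimed.Agent.R255.FLaw
open Classical

variable {Ω : Type}

theorem fp_aux_T_le (t : Ω → ℝ) (m : ℕ) (ω : Ω) : fpT t m ω ≤ t ω := ic_cell_le m (t ω)

theorem fp_aux_T_lt (t : Ω → ℝ) (m : ℕ) (ω : Ω) : t ω < fpT t m ω + 1 / 2 ^ m := by
  have := ic_cell_lt m (t ω)
  rw [add_div] at this
  exact this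

theorem fp_aux_U_le (q : Ω → ℝ × ℝ) (t : Ω → ℝ) (m : ℕ) (ω : Ω) : fpU q t m ω ≤ icW q t ω := ic_cell_le m (icW q t ω)

theorem fp_aux_U_lt (q : Ω → ℝ × ℝ) (t : Ω → ℝ) (m : ℕ) (ω : Ω) : icW q t ω < fpU q t m ω + 1 / 2 ^ m := by
  have := ic_cell_lt m (icW q t ω)
  rw [add_div] at this
  exact this

theorem fp_aux_S_mem (t : Ω → ℝ) (m : ℕ) (ω : Ω) : 0 ≤ fpS t m ω ∧ fpS t m ω < 1 := by
  have hp : (0 : ℝ) < 2 ^ m := by positivity
  have h1 := fp_aux_T_le t m ω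
  have h2 := fp_aux_T_lt t m ω
  unfold fpS
  constructor
  · exact mul_nonneg (by linarith) hp.le
  · have : t ω - fpT t m ω < 1 / 2 ^ m := by linarith
    rwa [lt_div_iff₀ hp] at this

theorem fp_icW (q : Ω → ℝ × ℝ) (t : Ω → ℝ) (m : ℕ) (ω : Ω) :
    icW (fpQ q t m) (fpS t m) ω = (icW q t ω - fpU q t m ω) * 2 ^ m := by
  unfold icW fpQ fpS
  ring

theorem fp_bd {A : ℝ} {q : Ω → ℝ × ℝ} {t : Ω → ℝ} (h : IcBd A q t) (m : ℕ) : IcBd (A + 1) (fpQ q t m) (fpS t m) := by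
  intro ω
  obtain ⟨h1, h2, h3⟩ := h ω
  have hA : 0 ≤ A := (abs_nonneg _).trans h1
  have hp : (0 : ℝ) < 2 ^ m := by positivity
  obtain ⟨s0, s1⟩ := fp_aux_S_mem t m ω
  refine ⟨?_, ?_, ?_⟩
  · show |(q ω).1| ≤ A + 1
    linarith
  · show |((q ω).2 - fpT t m ω * (q ω).1 - fpU q t m ω) * 2 ^ m| ≤ A + 1
    have e : ((q ω).2 - fpT t m ω * (q ω).1 - fpU q t m ω) * 2 ^ m
        = (icW q t ω - fpU q t m ω) * 2 ^ m + fpS t m ω * (q ω).1 := by
      unfold icW fpS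
      ring
    rw [e]
    have u0 := fp_aux_U_le q t m ω
    have u1 := fp_aux_U_lt q t m ω
    have a1 : 0 ≤ (icW q t ω - fpU q t m ω) * 2 ^ m := mul_nonneg (by linarith) hp.le
    have a2 : (icW q t ω - fpU q t m ω) * 2 ^ m < 1 := by
      have : icW q t ω - fpU q t m ω < 1 / 2 ^ m := by linarith
      rwa [lt_div_iff₀ hp] at this
    have a3 : |fpS t m ω * (q ω).1| ≤ A := by
      rw [abs_mul, abs_of_nonneg s0]
      calc fpS t m ω * |(q ω).1| ≤ 1 * A := mul_le_mul s1.le h1 (abs_nonneg _) (by norm_num)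
        _ = A := one_mul A
    calc |(icW q t ω - fpU q t m ω) * 2 ^ m + fpS t m ω * (q ω).1|
        ≤ |(icW q t ω - fpU q t m ω) * 2 ^ m| + |fpS t m ω * (q ω).1| := abs_add_le _ _
      _ ≤ 1 + A := by rw [abs_of_nonneg a1]; linarith
      _ = A + 1 := by ring
  · rw [abs_of_nonneg s0]
    linarith

theorem fp_aux_cell_shift (m j : ℕ) (x : ℝ) :
    icCell j ((x - (icCell m x : ℝ) / 2 ^ m) * 2 ^ m) = icCell (m + j) x - 2 ^ j * icCell m x := by
  unfold icCell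
  have hp : (2 : ℝ) ^ m ≠ 0 := by positivity
  have e : (x - (⌊x * 2 ^ m⌋ : ℝ) / 2 ^ m) * 2 ^ m * 2 ^ j = x * 2 ^ (m + j) - ((2 ^ j * ⌊x * 2 ^ m⌋ : ℤ) : ℝ) := by
    push_cast
    rw [pow_add]
    field_simp
  rw [e, Int.floor_sub_intCast]

theorem fp_icU (q : Ω → ℝ × ℝ) (t : Ω → ℝ) (m j : ℕ) (ω : Ω) :
    icU (fpQ q t m) (fpS t m) j ω = icU q t (m + j) ω - 2 ^ j * icU q t m ω := by
  unfold icU
  rw [fp_icW]
  exact fp_aux_cell_shift m j (icW q t ω)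

theorem fp_icS (t : Ω → ℝ) (m j : ℕ) (ω : Ω) : icS (fpS t m) j ω = icS t (m + j) ω - 2 ^ j * icS t m ω := by
  exact fp_aux_cell_shift m j (t ω)

theorem fp_icX (q : Ω → ℝ × ℝ) (t : Ω → ℝ) (m j : ℕ) : icX (fpQ q t m) j = icX q j := rfl

variable [Fintype Ω] {δ β' κ : Type}

/-- lists from a diameter bound -/
theorem fp_aux_list {α β : Type} (P : FLaw Ω) (B : Ω → β) (cond : Ω → α) (f : Ω → ℝ) (k : ℕ) (l : ℝ) (hl : 0 ≤ l)
    (hd : ∀ ω ω', cond ω = cond ω' → |f ω - f ω'| ≤ l / 2 ^ k)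
    (hB : ∀ ω ω', cond ω = cond ω' → icCell k (f ω) = icCell k (f ω') → B ω = B ω') :
    P.NVal (fun _ => True) B cond (l + 2) := by
  intro ω₀
  set F : Finset Ω := Finset.univ.filter fun ω => cond ω = cond ω₀ with hF
  set Cz : Finset ℤ := F.image fun ω => icCell k (f ω) with hCz
  have hne : Cz.Nonempty := ⟨icCell k (f ω₀), Finset.mem_image.2 ⟨ω₀, by simp [hF], rfl⟩⟩
  set z₁ := Cz.min' hne with hz₁
  have hz₁m : z₁ ∈ Cz := Finset.min'_mem _ _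
  obtain ⟨ω₁, hω₁F, hω₁⟩ := Finset.mem_image.1 hz₁m
  have hω₁c : cond ω₁ = cond ω₀ := by simpa [hF] using hω₁F
  have hsub : Cz ⊆ Finset.Icc z₁ (z₁ + ⌊l + 1⌋) := by
    intro z hz
    obtain ⟨ω, hωF, hω⟩ := Finset.mem_image.1 hz
    have hωc : cond ω = cond ω₀ := by simpa [hF] using hωF
    rw [Finset.mem_Icc]
    refine ⟨Finset.min'_le _ _ hz, ?_⟩
    have h1 := hd ω ω₁ (hωc.trans hω₁c.symm)
    have hp : (0 : ℝ) < 2 ^ k := by positivity
    rw [le_div_iff₀ hp] at h1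
    have h2 : f ω * 2 ^ k - f ω₁ * 2 ^ k ≤ l := by
      have := le_abs_self (f ω - f ω₁)
      nlinarith
    have h3 : (z : ℝ) ≤ f ω * 2 ^ k := by rw [← hω]; exact Int.floor_le _
    have h4 : f ω₁ * 2 ^ k < (z₁ : ℝ) + 1 := by rw [← hω₁]; exact Int.lt_floor_add_one _
    have h5 : ((z - z₁ : ℤ) : ℝ) ≤ l + 1 := by push_cast; linarith
    have h6 : z - z₁ ≤ ⌊l + 1⌋ := Int.le_floor.2 h5
    linarith
  have hcard : (Cz.card : ℝ) ≤ l + 2 := by
    have h1 : Cz.card ≤ (Finset.Icc z₁ (z₁ + ⌊l + 1⌋)).card := Finset.card_le_card hsub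
    rw [Int.card_Icc] at h1
    have h0 : (0 : ℤ) ≤ ⌊l + 1⌋ := Int.floor_nonneg.2 (by linarith)
    have h2 : ((z₁ + ⌊l + 1⌋ + 1 - z₁).toNat : ℝ) = (⌊l + 1⌋ : ℝ) + 1 := by
      have e : z₁ + ⌊l + 1⌋ + 1 - z₁ = ⌊l + 1⌋ + 1 := by ring
      rw [e]
      have : ((⌊l + 1⌋ + 1).toNat : ℤ) = ⌊l + 1⌋ + 1 := Int.toNat_of_nonneg (by linarith)
      exact_mod_cast this
    have h3 : (⌊l + 1⌋ : ℝ) ≤ l + 1 := Int.floor_le _
    calc (Cz.card : ℝ) ≤ ((z₁ + ⌊l + 1⌋ + 1 - z₁).toNat : ℝ) := by exact_mod_cast h1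
      _ = (⌊l + 1⌋ : ℝ) + 1 := h2
      _ ≤ l + 2 := by linarith
  -- transfer to `B`
  set hfun : ℤ → β := fun z => if hz : ∃ ω ∈ F, icCell k (f ω) = z then B hz.choose else B ω₀ with hhfun
  refine ⟨Cz.image hfun, ?_, ?_⟩
  · exact le_trans (by exact_mod_cast Finset.card_image_le) hcard
  · intro ω _ _ hc
    have hωF : ω ∈ F := by simp [hF, hc]
    refine Finset.mem_image.2 ⟨icCell k (f ω), Finset.mem_image.2 ⟨ω, hωF, rfl⟩, ?_⟩
    have hz : ∃ ω' ∈ F, icCell k (f ω') = icCell k (f ω) := ⟨ω, hωF, rfl⟩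
    simp only [hhfun, dif_pos hz]
    obtain ⟨h1, h2⟩ := hz.choose_spec
    have h1c : cond hz.choose = cond ω₀ := by simpa [hF] using h1
    exact hB _ _ (h1c.trans hc.symm) h2


theorem fp_aux_nval_mono {α β : Type} (P : FLaw Ω) {B : Ω → β} {cond : Ω → α} {N N' : ℝ} (h : P.NVal (fun _ => True) B cond N)
    (hN : N ≤ N') : P.NVal (fun _ => True) B cond N' := by
  intro ω₀
  obtain ⟨S, h1, h2⟩ := h ω₀
  exact ⟨S, h1.trans hN, h2⟩

theorem fp_aux_A_nonneg (P : FLaw Ω) {A : ℝ} {q : Ω → ℝ × ℝ} {t : Ω → ℝ} (h : IcBd A q t) : 0 ≤ A := by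
  obtain ⟨ω, _⟩ := ent_exists_supp P
  exact (abs_nonneg _).trans (h ω).1

theorem fp_aux_pow_le {m M : ℕ} (h : m ≤ M) : (1 : ℝ) / 2 ^ M ≤ 1 / 2 ^ m :=
  one_div_le_one_div_of_le (by positivity) (pow_le_pow_right₀ (by norm_num) h)

/-- the intercept cell of level `m` has `≤ 2A+4` values given the slope cell of level `m` and the point name -/
theorem fp_list_tube (P : FLaw Ω) {A : ℝ} {q : Ω → ℝ × ℝ} {t : Ω → ℝ} (D : Ω → δ) (Qn : Ω → κ) {m M : ℕ} (h : IcBd A q t)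
    (hQ : ∀ ω ω', Qn ω = Qn ω' → icQ q M ω = icQ q M ω') (hm : m ≤ M) :
    P.NVal (fun _ => True) (icU q t m) (pair (pair (icS t m) Qn) D) (2 * A + 4) := by
  have hA := fp_aux_A_nonneg P h
  refine fp_aux_nval_mono P (fp_aux_list P (icU q t m) _ (icW q t) m (2 * A + 1) (by linarith) ?_ ?_) (by linarith)
  · intro ω ω' hc
    simp only [FLaw.pair, Prod.mk.injEq] at hc
    obtain ⟨⟨hS, hq⟩, -⟩ := hc
    have hq' := hQ ω ω' hq
    simp only [icQ, Prod.mk.injEq] at hq'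
    have d1 := (ic_cell_dist hq'.1).trans (fp_aux_pow_le hm)
    have d2 := (ic_cell_dist hq'.2).trans (fp_aux_pow_le hm)
    have d3 : |t ω - t ω'| ≤ 1 / 2 ^ m := ic_cell_dist hS
    obtain ⟨-, -, b3⟩ := h ω
    obtain ⟨b1, -, -⟩ := h ω'
    have e : icW q t ω - icW q t ω' = ((q ω).2 - (q ω').2) - t ω * ((q ω).1 - (q ω').1) - (t ω - t ω') * (q ω').1 := by
      unfold icW; ring
    rw [e]
    set hh : ℝ := 1 / 2 ^ m with hhh
    have hh0 : 0 ≤ hh := by positivity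
    have t1 : |t ω * ((q ω).1 - (q ω').1)| ≤ A * hh := by
      rw [abs_mul]; exact mul_le_mul b3 d1 (abs_nonneg _) hA
    have t2 : |(t ω - t ω') * (q ω').1| ≤ hh * A := by
      rw [abs_mul]; exact mul_le_mul d3 b1 (abs_nonneg _) hh0
    have t3 := abs_sub (((q ω).2 - (q ω').2) - t ω * ((q ω).1 - (q ω').1)) ((t ω - t ω') * (q ω').1)
    have t4 := abs_sub ((q ω).2 - (q ω').2) (t ω * ((q ω).1 - (q ω').1))
    have : (2 * A + 1) / 2 ^ m = (2 * A + 1) * hh := by rw [hhh]; ring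
    rw [this]
    nlinarith
  · intro ω ω' _ hz
    exact hz

/-- the rescaled cell has `≤ 2A+4` values given the point name and the tube -/
theorem fp_list_cell (P : FLaw Ω) {A : ℝ} {q : Ω → ℝ × ℝ} {t : Ω → ℝ} (D : Ω → δ) (Qn : Ω → κ) {m n M : ℕ} (h : IcBd A q t)
    (hQ : ∀ ω ω', Qn ω = Qn ω' → icQ q M ω = icQ q M ω') (hm : m + n ≤ M) :
    P.NVal (fun _ => True) (icQ (fpQ q t m) n) (pair Qn (pair (fpTube q t m) D)) (2 * A + 4) := by
  have hA := fp_aux_A_nonneg P h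
  refine fp_aux_nval_mono P (fp_aux_list P (icQ (fpQ q t m) n) _ (fun ω => (fpQ q t m ω).2) n (A + 2) (by linarith) ?_ ?_)
    (by linarith)
  · intro ω ω' hc
    simp only [FLaw.pair, fpTube, Prod.mk.injEq] at hc
    obtain ⟨hq, ⟨hS, hU⟩, -⟩ := hc
    have hq' := hQ ω ω' hq
    simp only [icQ, Prod.mk.injEq] at hq'
    have d1 := ic_cell_dist hq'.1
    have d2 := ic_cell_dist hq'.2
    have eT : fpT t m ω = fpT t m ω' := by unfold fpT; rw [hS]
    have eU : fpU q t m ω = fpU q t m ω' := by unfold fpU; rw [hU]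
    have hT : |fpT t m ω'| ≤ A + 1 := by
      have h1 := fp_aux_T_le t m ω'
      have h2 := fp_aux_T_lt t m ω'
      have h3 := abs_le.1 (h ω').2.2
      have h4 : (1 : ℝ) / 2 ^ m ≤ 1 := by
        rw [div_le_one (by positivity)]; exact one_le_pow₀ (by norm_num)
      rw [abs_le]; constructor <;> linarith [h3.1, h3.2]
    have e : (fpQ q t m ω).2 - (fpQ q t m ω').2
        = (((q ω).2 - (q ω').2) - fpT t m ω' * ((q ω).1 - (q ω').1)) * 2 ^ m := by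
      unfold fpQ; simp only; rw [eT, eU]; ring
    rw [e, abs_mul, abs_of_pos (by positivity : (0 : ℝ) < 2 ^ m)]
    set hh : ℝ := 1 / 2 ^ M with hhh
    have hh0 : 0 ≤ hh := by positivity
    have t1 : |fpT t m ω' * ((q ω).1 - (q ω').1)| ≤ (A + 1) * hh := by
      rw [abs_mul]; exact mul_le_mul hT d1 (abs_nonneg _) (by linarith)
    have t4 := abs_sub ((q ω).2 - (q ω').2) (fpT t m ω' * ((q ω).1 - (q ω').1))
    have t5 : |((q ω).2 - (q ω').2) - fpT t m ω' * ((q ω).1 - (q ω').1)| ≤ (A + 2) * hh := by nlinarith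
    have t6 : hh * 2 ^ m ≤ 1 / 2 ^ n := by
      rw [hhh, le_div_iff₀ (by positivity), div_mul_eq_mul_div, div_mul_eq_mul_div, div_le_iff₀ (by positivity), one_mul, one_mul,
        ← pow_add]
      exact pow_le_pow_right₀ (by norm_num) hm
    calc |((q ω).2 - (q ω').2) - fpT t m ω' * ((q ω).1 - (q ω').1)| * 2 ^ m ≤ (A + 2) * hh * 2 ^ m :=
          mul_le_mul_of_nonneg_right t5 (by positivity)
      _ = (A + 2) * (hh * 2 ^ m) := by ring
      _ ≤ (A + 2) * (1 / 2 ^ n) := mul_le_mul_of_nonneg_left t6 (by linarith)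
      _ = (A + 2) / 2 ^ n := by ring
  · intro ω ω' hc hz
    simp only [FLaw.pair, Prod.mk.injEq] at hc
    have hq' := hQ ω ω' hc.1
    simp only [icQ, Prod.mk.injEq] at hq'
    simp only [icQ, Prod.mk.injEq]
    exact ⟨ic_cell_nest (by omega) hq'.1, hz⟩

omit [Fintype Ω] in
theorem fp_aux_win_dist {A : ℝ} {q : Ω → ℝ × ℝ} {t : Ω → ℝ} {m n : ℕ} (h : IcBd A q t) {ω ω' : Ω}
    (hS : icS t m ω = icS t m ω') (hS' : icS t (m + n) ω = icS t (m + n) ω') (hX : icX q n ω = icX q n ω') :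
    |fpS t m ω * (q ω).1 - fpS t m ω' * (q ω').1| ≤ (A + 1) / 2 ^ n := by
  have hA : 0 ≤ A := (abs_nonneg _).trans (h ω).1
  have d1 : |(q ω).1 - (q ω').1| ≤ 1 / 2 ^ n := ic_cell_dist hX
  have hs : icS (fpS t m) n ω = icS (fpS t m) n ω' := by rw [fp_icS, fp_icS, hS, hS']
  have d2 : |fpS t m ω - fpS t m ω'| ≤ 1 / 2 ^ n := ic_cell_dist hs
  obtain ⟨s0, s1⟩ := fp_aux_S_mem t m ω
  have b1 := (h ω').1
  have e : fpS t m ω * (q ω).1 - fpS t m ω' * (q ω').1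
      = fpS t m ω * ((q ω).1 - (q ω').1) + (fpS t m ω - fpS t m ω') * (q ω').1 := by ring
  rw [e]
  set hh : ℝ := 1 / 2 ^ n with hhh
  have hh0 : 0 ≤ hh := by positivity
  have t1 : |fpS t m ω * ((q ω).1 - (q ω').1)| ≤ 1 * hh := by
    rw [abs_mul, abs_of_nonneg s0]; exact mul_le_mul s1.le d1 (abs_nonneg _) (by norm_num)
  have t2 : |(fpS t m ω - fpS t m ω') * (q ω').1| ≤ hh * A := by
    rw [abs_mul]; exact mul_le_mul d2 b1 (abs_nonneg _) hh0
  have t3 := abs_add_le (fpS t m ω * ((q ω).1 - (q ω').1)) ((fpS t m ω - fpS t m ω') * (q ω').1)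
  have : (A + 1) / 2 ^ n = (A + 1) * hh := by rw [hhh]; ring
  rw [this]
  nlinarith

/-- the rescaled cell has `≤ 2A+4` values given its projection, its column, the tag and the tube -/
theorem fp_list_fib (P : FLaw Ω) {A : ℝ} {q : Ω → ℝ × ℝ} {t : Ω → ℝ} (D : Ω → δ) (Tg : Ω → β') {m n : ℕ} (h : IcBd A q t)
    (hT : ∀ ω ω', Tg ω = Tg ω' → icS t (m + n) ω = icS t (m + n) ω') :
    P.NVal (fun _ => True) (icQ (fpQ q t m) n)
      (pair (icU (fpQ q t m) (fpS t m) n) (pair (icX (fpQ q t m) n) (pair Tg (pair (fpTube q t m) D)))) (2 * A + 4) := by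
  have hA := fp_aux_A_nonneg P h
  refine fp_aux_nval_mono P (fp_aux_list P (icQ (fpQ q t m) n) _ (fun ω => (fpQ q t m ω).2) n (A + 2) (by linarith) ?_ ?_)
    (by linarith)
  · intro ω ω' hc
    simp only [FLaw.pair, fpTube, Prod.mk.injEq] at hc
    obtain ⟨hU, hX, hTg, ⟨hS, -⟩, -⟩ := hc
    have d0 : |icW (fpQ q t m) (fpS t m) ω - icW (fpQ q t m) (fpS t m) ω'| ≤ 1 / 2 ^ n := ic_cell_dist hU
    have d1 := fp_aux_win_dist (m := m) (n := n) h hS (hT ω ω' hTg) hX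
    have e : (fpQ q t m ω).2 - (fpQ q t m ω').2
        = (icW (fpQ q t m) (fpS t m) ω - icW (fpQ q t m) (fpS t m) ω')
          + (fpS t m ω * (q ω).1 - fpS t m ω' * (q ω').1) := by
      unfold icW fpQ; simp only; ring
    rw [e]
    have t3 := abs_add_le (icW (fpQ q t m) (fpS t m) ω - icW (fpQ q t m) (fpS t m) ω')
      (fpS t m ω * (q ω).1 - fpS t m ω' * (q ω').1)
    have : (A + 2) / 2 ^ n = 1 / 2 ^ n + (A + 1) / 2 ^ n := by ring
    rw [this]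
    linarith
  · intro ω ω' hc hz
    simp only [FLaw.pair, Prod.mk.injEq] at hc
    simp only [icQ, Prod.mk.injEq]
    exact ⟨hc.2.1, hz⟩

/-- the projection has `≤ 2A+4` values given the rescaled cell, the tag and the tube -/
theorem fp_list_proj (P : FLaw Ω) {A : ℝ} {q : Ω → ℝ × ℝ} {t : Ω → ℝ} (D : Ω → δ) (Tg : Ω → β') {m n : ℕ} (h : IcBd A q t)
    (hT : ∀ ω ω', Tg ω = Tg ω' → icS t (m + n) ω = icS t (m + n) ω') :
    P.NVal (fun _ => True) (icU (fpQ q t m) (fpS t m) n)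
      (pair (icQ (fpQ q t m) n) (pair Tg (pair (fpTube q t m) D))) (2 * A + 4) := by
  have hA := fp_aux_A_nonneg P h
  refine fp_aux_nval_mono P (fp_aux_list P (icU (fpQ q t m) (fpS t m) n) _ (icW (fpQ q t m) (fpS t m)) n (A + 2)
    (by linarith) ?_ ?_) (by linarith)
  · intro ω ω' hc
    simp only [FLaw.pair, fpTube, icQ, Prod.mk.injEq] at hc
    obtain ⟨⟨hX, hY⟩, hTg, ⟨hS, -⟩, -⟩ := hc
    have d0 : |(fpQ q t m ω).2 - (fpQ q t m ω').2| ≤ 1 / 2 ^ n := ic_cell_dist hY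
    have d1 := fp_aux_win_dist (m := m) (n := n) h hS (hT ω ω' hTg) hX
    have e : icW (fpQ q t m) (fpS t m) ω - icW (fpQ q t m) (fpS t m) ω'
        = ((fpQ q t m ω).2 - (fpQ q t m ω').2) - (fpS t m ω * (q ω).1 - fpS t m ω' * (q ω').1) := by
      unfold icW fpQ; simp only; ring
    rw [e]
    have t3 := abs_sub ((fpQ q t m ω).2 - (fpQ q t m ω').2) (fpS t m ω * (q ω).1 - fpS t m ω' * (q ω').1)
    have : (A + 2) / 2 ^ n = 1 / 2 ^ n + (A + 1) / 2 ^ n := by ring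
    rw [this]
    linarith
  · intro ω ω' _ hz
    exact hz

/-- entropy of the column -/
theorem fp_ent_col (P : FLaw Ω) {A : ℝ} {q : Ω → ℝ × ℝ} {t : Ω → ℝ} (h : IcBd A q t) (hA : 1 ≤ A) (n : ℕ) :
    P.ent (icX q n) ≤ n * Real.log 2 + Real.log (2 * A + 4) := by
  have hp : (0 : ℝ) < 2 ^ n := by positivity
  have hp1 : (1 : ℝ) ≤ 2 ^ n := one_le_pow₀ (by norm_num)
  set S : Finset ℤ := Finset.Icc ⌊-A * 2 ^ n⌋ ⌊A * 2 ^ n⌋ with hS
  have h1 : P.ent (icX q n) ≤ Real.log S.card := by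
    refine ent_le_log_card P _ S fun ω _ => ?_
    have hb := abs_le.1 (h ω).1
    rw [hS, Finset.mem_Icc]
    constructor
    · exact Int.floor_le_floor (mul_le_mul_of_nonneg_right (by linarith [hb.1]) hp.le)
    · exact Int.floor_le_floor (mul_le_mul_of_nonneg_right hb.2 hp.le)
  have h2 : (S.card : ℝ) ≤ (2 * A + 4) * 2 ^ n := by
    rw [hS, Int.card_Icc]
    have a1 : (⌊A * 2 ^ n⌋ : ℝ) ≤ A * 2 ^ n := Int.floor_le _
    have a2 : -A * 2 ^ n < (⌊-A * 2 ^ n⌋ : ℝ) + 1 := Int.lt_floor_add_one _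
    have a0 : ⌊-A * 2 ^ n⌋ ≤ ⌊A * 2 ^ n⌋ := Int.floor_le_floor (by nlinarith)
    have a3 : ((⌊A * 2 ^ n⌋ + 1 - ⌊-A * 2 ^ n⌋).toNat : ℝ) = ((⌊A * 2 ^ n⌋ + 1 - ⌊-A * 2 ^ n⌋ : ℤ) : ℝ) := by
      have : ((⌊A * 2 ^ n⌋ + 1 - ⌊-A * 2 ^ n⌋).toNat : ℤ) = ⌊A * 2 ^ n⌋ + 1 - ⌊-A * 2 ^ n⌋ :=
        Int.toNat_of_nonneg (by linarith)
      exact_mod_cast this
    rw [a3]
    push_cast
    nlinarith
  have hc0 : 0 < (S.card : ℝ) := by
    obtain ⟨ω, _⟩ := ent_exists_supp P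
    have hb := abs_le.1 (h ω).1
    have : icX q n ω ∈ S := by
      rw [hS, Finset.mem_Icc]
      constructor
      · exact Int.floor_le_floor (mul_le_mul_of_nonneg_right (by linarith [hb.1]) hp.le)
      · exact Int.floor_le_floor (mul_le_mul_of_nonneg_right hb.2 hp.le)
    exact_mod_cast Finset.card_pos.2 ⟨_, this⟩
  calc P.ent (icX q n) ≤ Real.log S.card := h1
    _ ≤ Real.log ((2 * A + 4) * 2 ^ n) := Real.log_le_log hc0 h2
    _ = n * Real.log 2 + Real.log (2 * A + 4) := by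
        rw [Real.log_mul (by linarith) hp.ne', Real.log_pow]; ring

end Claimed.Agent.R256
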