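import Claimed.Agent.R256.Fp.Defs

/-!
# Row 256, unit FP, file 2: four ABSTRACT lemmas on finite laws (no geometry).        (architect helper243)

* `fp_neg_abs` : `E (sur(Y|X,Z) - sur(U|G,Z))₊ ≤ I(Y;G|Z) + log c + 1` if `Y` determines `X` and `Y` has `≤ c` values given `(U,X,G,Z)`.
  PLAN.  At a point of positive mass, with `W = (X,G,Z)`:  `sur(Y|X,Z) - sur(U|G,Z) = a + b + c'`,
   `a  = sur(Y|X,Z) - sur(Y|W)` = pointwise information `i(Y;G|X,Z)`:  `E a₊ = E a + E a₋ ≤ I(Y;G|X,Z) + exp(-1)`  (`ent_neg_part` / `ent_zero_info`; or `x₊ = x + x₋`, `E exp(-a) ≤ 1`, `x₋ ≤ exp(-x)/e`),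
        and `I(Y;G|X,Z) ≤ I(Y;G|Z)` because `X` is a function of `Y` (`ent_miC_chain`);
   `b  = sur(Y|W) - sur(U|W) ≤ sur(Y|U,W)` (`ent_surC_swap`, `ent_surC_nonneg`), `E sur(Y|U,W) = H(Y|U,W) ≤ log c` (`ent_entC_le_log_nval`);
   `c' = sur(U|W) - sur(U|G,Z) = - i(U;X|G,Z)`:  `E c'₊ ≤ exp(-1)`.      `max 0 (a+b+c') ≤ max 0 a + max 0 b + max 0 c'`, `2 exp(-1) ≤ 1`.
* `fp_tele`  : `Σ_k I(U_{k+1}; X | U_k, Z) ≤ H(X)` for nested names (induction on `N`: the sum equals `I(U_N; X | U_0, Z)`; `ent_miC_chain`, `ent_miC_le_right`).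
* `fp_chain_abs` : pointwise chain rule for nested names (induction; `ent_surC_chain`, `ent_surC_congr`, `ent_surC_nonneg`).
* `fp_abs`   : the BUDGET argument.  `B_k = {s_k + c ≤ a}`, `G_k = {S_k ≥ min (s_k + c) a}`.  `E(S_k - s_k) ≥ c P(B_k ∩ G_k) - e0`, so `Σ P(B_k ∩ G_k) ≤ (Bud + N e0)/c`.
  `Zb ω = #{k < N : ω ∈ (B_k ∩ G_k) ∪ G_kᶜ}`, `E Zb ≤ (Bud + N e0)/c + N b`.  For `k` not counted `S_k ≥ a`; so `Σ S_k ≥ a (N - Zb)`; the event forces `lam < Zb`; `ent_markov`.
Statements FROZEN (ask helper243); auxiliary lemmas: prefix `fp_aux_`.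
-/

set_option autoImplicit false

namespace Claimed.Agent.R256

open Claimed.Agent.R255 Claimed.Agent.R255.FLaw
open Classical

variable {Ω : Type} [Fintype Ω] {α β γ δ ε : Type}

/-- the negative part of a pointwise conditional information has mean `≤ 1/e` -/
theorem fp_aux_info_neg {α' β' γ' : Type} (P : FLaw Ω) (A : Ω → α') (B : Ω → β') (C : Ω → γ') :
    P.ev (fun ω => max 0 (P.surC A (pair B C) ω - P.surC A C ω)) ≤ Real.exp (-1) := by
  have hm := ent_aux_ci_mass P A B C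
  have h1 : P.ev (fun ω => max 0 (P.surC A (pair B C) ω - P.surC A C ω)) ≤
      P.ev (fun ω => Real.exp (-1) * (P.fib (pair A C) ω * P.fib (pair B C) ω
        / (P.fib (pair (pair A B) C) ω * P.fib C ω))) := by
    refine ent_ev_mono P fun ω hω => ?_
    have a1 := ent_fib_pos P (pair A C) hω
    have a2 := ent_fib_pos P (pair B C) hω
    have a3 := ent_fib_pos P (pair (pair A B) C) hω
    have a4 := ent_fib_pos P C hω
    have e : P.fib (pair A (pair B C)) ω = P.fib (pair (pair A B) C) ω := by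
      refine ent_pr_congr P fun ω' _ => ?_
      simp only [FLaw.pair, Prod.mk.injEq]
      tauto
    have h2 := ent_aux_log_le _ (div_pos (mul_pos a1 a2) (mul_pos a3 a4))
    rw [Real.log_div (mul_pos a1 a2).ne' (mul_pos a3 a4).ne', Real.log_mul a1.ne' a2.ne', Real.log_mul a3.ne' a4.ne'] at h2
    rw [ent_surC_eq_sub P _ _ hω, ent_surC_eq_sub P _ _ hω, e, mul_comm]
    refine le_trans (le_of_eq ?_) h2
    congr 1
    ring
  rw [ent_ev_mul_left] at h1
  nlinarith [Real.exp_pos (-1)]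

/-- the positive part of a pointwise conditional information -/
theorem fp_aux_info_pos {α' β' γ' : Type} (P : FLaw Ω) (A : Ω → α') (B : Ω → β') (C : Ω → γ') :
    P.ev (fun ω => max 0 (P.surC A C ω - P.surC A (pair B C) ω)) ≤ P.miC A B C + Real.exp (-1) := by
  have h1 := fp_aux_info_neg P A B C
  have h2 : P.ev (fun ω => max 0 (P.surC A C ω - P.surC A (pair B C) ω))
      = P.ev (fun ω => (P.surC A C ω - P.surC A (pair B C) ω) + max 0 (P.surC A (pair B C) ω - P.surC A C ω)) := by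
    refine ent_ev_congr P fun ω _ => ?_
    rcases le_total (P.surC A C ω) (P.surC A (pair B C) ω) with h | h
    · rw [max_eq_left (by linarith), max_eq_right (by linarith)]
      ring
    · rw [max_eq_right (by linarith), max_eq_left (by linarith)]
      ring
  rw [h2, ent_ev_add P (fun ω => P.surC A C ω - P.surC A (pair B C) ω), ent_ev_sub, ← ent_entC_eq_ev, ← ent_entC_eq_ev,
    ← ent_miC_eq]
  linarith

theorem fp_neg_abs (P : FLaw Ω) (U : Ω → α) (Y : Ω → β) (X : Ω → γ) (G : Ω → δ) (Z : Ω → ε) {c : ℝ} (hc : 1 ≤ c)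
    (hX : ∀ ω ω', Y ω = Y ω' → X ω = X ω')
    (hL : P.NVal (fun _ => True) Y (pair U (pair X (pair G Z))) c) :
    P.ev (fun ω => max 0 (P.surC Y (pair X Z) ω - P.surC U (pair G Z) ω)) ≤ P.miC Y G Z + Real.log c + 1 := by
  have hA := fp_aux_info_pos P Y G (pair X Z)
  have hC := fp_aux_info_neg P U X (pair G Z)
  have hB : P.ev (P.surC Y (pair U (pair X (pair G Z)))) ≤ Real.log c := by
    rw [← ent_entC_eq_ev]
    exact ent_entC_le_log_nval P Y _ hL
  have hmi : P.miC Y G (pair X Z) ≤ P.miC Y G Z := by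
    have h1 := ent_miC_chain P G Y X Z
    have h2 := ent_miC_mono P G Y (pair Y X) Z fun ω ω' _ _ h _ => by
      simp only [FLaw.pair, Prod.mk.injEq]
      exact ⟨h, hX _ _ h⟩
    have h3 := ent_miC_nonneg P G X Z
    rw [ent_miC_comm P Y G (pair X Z), ent_miC_comm P Y G Z]
    linarith
  have hpt : ∀ ω, P.p ω ≠ 0 → max 0 (P.surC Y (pair X Z) ω - P.surC U (pair G Z) ω)
      ≤ max 0 (P.surC Y (pair X Z) ω - P.surC Y (pair G (pair X Z)) ω) + P.surC Y (pair U (pair X (pair G Z))) ω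
        + max 0 (P.surC U (pair X (pair G Z)) ω - P.surC U (pair G Z) ω) := by
    intro ω hω
    have e1 : P.surC Y (pair G (pair X Z)) ω = P.surC Y (pair X (pair G Z)) ω :=
      ent_surC_congr P _ _ _ _ ω (fun ω' _ => by simp only [FLaw.pair, Prod.mk.injEq]; tauto) (fun ω' _ _ => Iff.rfl)
    have h1 := ent_surC_swap P Y U (pair X (pair G Z)) hω
    have h2 := ent_surC_nonneg P U (pair Y (pair X (pair G Z))) hω
    have h3 := ent_surC_nonneg P Y (pair U (pair X (pair G Z))) hω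
    have m1 := le_max_left 0 (P.surC Y (pair X Z) ω - P.surC Y (pair G (pair X Z)) ω)
    have m2 := le_max_right 0 (P.surC Y (pair X Z) ω - P.surC Y (pair G (pair X Z)) ω)
    have m3 := le_max_left 0 (P.surC U (pair X (pair G Z)) ω - P.surC U (pair G Z) ω)
    have m4 := le_max_right 0 (P.surC U (pair X (pair G Z)) ω - P.surC U (pair G Z) ω)
    refine max_le (by linarith) ?_
    linarith
  have hexp : Real.exp (-1) ≤ 1 / 2 := by
    rw [Real.exp_neg, ← one_div]
    exact one_div_le_one_div_of_le two_pos (by have := Real.add_one_le_exp (1 : ℝ); linarith)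
  refine (ent_ev_mono P hpt).trans ?_
  rw [ent_ev_add P (fun ω => max 0 (P.surC Y (pair X Z) ω - P.surC Y (pair G (pair X Z)) ω) + P.surC Y (pair U (pair X (pair G Z))) ω),
    ent_ev_add P (fun ω => max 0 (P.surC Y (pair X Z) ω - P.surC Y (pair G (pair X Z)) ω))]
  linarith

theorem fp_tele (P : FLaw Ω) (U : ℕ → Ω → α) (X : Ω → γ) (Z : Ω → ε) (N : ℕ)
    (hU : ∀ k ω ω', U (k + 1) ω = U (k + 1) ω' → U k ω = U k ω') :
    ∑ k ∈ Finset.range N, (P.entC (U (k + 1)) (pair (U k) Z) - P.entC (U (k + 1)) (pair (U k) (pair X Z))) ≤ P.ent X := by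
  have h1 : ∀ (ζ : Type) (W : Ω → ζ) (k : ℕ),
      P.entC (U (k + 1)) (pair (U k) W) = P.ent (pair (U (k + 1)) W) - P.ent (pair (U k) W) := by
    intro ζ W k
    unfold FLaw.entC
    congr 1
    refine ent_congr_ker P _ _ fun ω ω' _ _ => ?_
    simp only [FLaw.pair, Prod.mk.injEq]
    constructor
    · rintro ⟨a, -, c⟩
      exact ⟨a, c⟩
    · rintro ⟨a, c⟩
      exact ⟨a, hU k ω ω' a, c⟩
  have h2 : ∑ k ∈ Finset.range N, (P.entC (U (k + 1)) (pair (U k) Z) - P.entC (U (k + 1)) (pair (U k) (pair X Z)))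
      = (P.ent (pair (U N) Z) - P.ent (pair (U 0) Z)) - (P.ent (pair (U N) (pair X Z)) - P.ent (pair (U 0) (pair X Z))) := by
    rw [Finset.sum_sub_distrib]
    congr 1
    · rw [← Finset.sum_range_sub (fun k => P.ent (pair (U k) Z)) N]
      exact Finset.sum_congr rfl fun k _ => h1 _ Z k
    · rw [← Finset.sum_range_sub (fun k => P.ent (pair (U k) (pair X Z))) N]
      exact Finset.sum_congr rfl fun k _ => h1 _ (pair X Z) k
  rw [h2]
  have h3 : ∀ k, P.ent (pair (U k) (pair X Z)) - P.ent (pair (U k) Z) = P.entC X (pair (U k) Z) := by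
    intro k
    unfold FLaw.entC
    congr 1
    refine ent_congr_ker P _ _ fun ω ω' _ _ => ?_
    simp only [FLaw.pair, Prod.mk.injEq]
    tauto
  have h4 := h3 0
  have h5 := h3 N
  have h6 := ent_entC_nonneg P X (pair (U N) Z)
  have h7 := ent_entC_le P X (pair (U 0) Z)
  linarith

theorem fp_chain_abs (P : FLaw Ω) (U : ℕ → Ω → α) (Z : Ω → ε) (N : ℕ)
    (hU : ∀ k ω ω', U (k + 1) ω = U (k + 1) ω' → U k ω = U k ω') {ω : Ω} (hω : P.p ω ≠ 0) :
    ∑ k ∈ Finset.range N, P.surC (U (k + 1)) (pair (U k) Z) ω ≤ P.surC (U N) Z ω := by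
  induction N with
  | zero => simpa using ent_surC_nonneg P (U 0) Z hω
  | succ N ih =>
    rw [Finset.sum_range_succ]
    have h1 := ent_surC_chain P (U N) (U (N + 1)) Z hω
    have h2 : P.surC (pair (U N) (U (N + 1))) Z ω = P.surC (U (N + 1)) Z ω := by
      refine ent_surC_congr P _ _ _ _ ω (fun _ _ => Iff.rfl) fun ω' _ _ => ?_
      simp only [FLaw.pair, Prod.mk.injEq]
      constructor
      · rintro ⟨-, b⟩
        exact b
      · intro b
        exact ⟨hU N ω' ω b, b⟩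
    linarith

theorem fp_abs (P : FLaw Ω) (N : ℕ) (S s : ℕ → Ω → ℝ) {a c Bud e0 b lam : ℝ} (ha : 0 ≤ a) (hc : 0 < c) (hlam : 0 < lam)
    (hS : ∀ k < N, ∀ ω, P.p ω ≠ 0 → 0 ≤ S k ω)
    (hBud : ∑ k ∈ Finset.range N, P.ev (fun ω => S k ω - s k ω) ≤ Bud)
    (hneg : ∀ k < N, P.ev (fun ω => max 0 (s k ω - S k ω)) ≤ e0)
    (hwl : ∀ k < N, P.pr (fun ω => S k ω < min (s k ω + c) a) ≤ b) :
    P.pr (fun ω => ∑ k ∈ Finset.range N, S k ω < a * (N - lam)) ≤ ((Bud + N * e0) / c + N * b) / lam := by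
  -- the two kinds of bad windows
  set I1 : ℕ → Ω → ℝ := fun k ω => if (s k ω + c ≤ a ∧ min (s k ω + c) a ≤ S k ω) then 1 else 0 with hI1
  set I2 : ℕ → Ω → ℝ := fun k ω => if S k ω < min (s k ω + c) a then 1 else 0 with hI2
  set Zb : Ω → ℝ := fun ω => ∑ k ∈ Finset.range N, (I1 k ω + I2 k ω) with hZb
  have hI1nn : ∀ k ω, 0 ≤ I1 k ω := fun k ω => by simp only [hI1]; split_ifs <;> norm_num
  have hI2nn : ∀ k ω, 0 ≤ I2 k ω := fun k ω => by simp only [hI2]; split_ifs <;> norm_num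
  -- expectation of I1
  have hE1 : ∀ k < N, c * P.ev (I1 k) ≤ P.ev (fun ω => S k ω - s k ω) + e0 := by
    intro k hk
    have h1 : P.ev (fun ω => c * I1 k ω) ≤ P.ev (fun ω => (S k ω - s k ω) + max 0 (s k ω - S k ω)) := by
      refine ent_ev_mono P fun ω _ => ?_
      simp only [hI1]
      split_ifs with h
      · obtain ⟨h1, h2⟩ := h
        rw [min_eq_left h1] at h2
        have := le_max_left 0 (s k ω - S k ω)
        linarith
      · have := le_max_right 0 (s k ω - S k ω)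
        linarith
    rw [ent_ev_mul_left, ent_ev_add] at h1
    linarith [hneg k hk]
  have hE2 : ∀ k < N, P.ev (I2 k) ≤ b := by
    intro k hk
    have := hwl k hk
    rwa [ent_pr_eq_ev] at this
  have hEZ : P.ev Zb ≤ (Bud + N * e0) / c + N * b := by
    have h1 : P.ev Zb = ∑ k ∈ Finset.range N, (P.ev (I1 k) + P.ev (I2 k)) := by
      simp only [hZb]
      rw [ent_ev_sum]
      exact Finset.sum_congr rfl fun k _ => ent_ev_add P _ _
    rw [h1, Finset.sum_add_distrib]
    have h2 : ∑ k ∈ Finset.range N, P.ev (I1 k) ≤ (Bud + N * e0) / c := by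
      rw [le_div_iff₀ hc, mul_comm, Finset.mul_sum]
      calc ∑ k ∈ Finset.range N, c * P.ev (I1 k)
          ≤ ∑ k ∈ Finset.range N, (P.ev (fun ω => S k ω - s k ω) + e0) :=
            Finset.sum_le_sum fun k hk => hE1 k (Finset.mem_range.1 hk)
        _ = ∑ k ∈ Finset.range N, P.ev (fun ω => S k ω - s k ω) + N * e0 := by
            rw [Finset.sum_add_distrib]; simp
        _ ≤ Bud + N * e0 := by linarith
    have h3 : ∑ k ∈ Finset.range N, P.ev (I2 k) ≤ N * b := by
      calc ∑ k ∈ Finset.range N, P.ev (I2 k) ≤ ∑ _k ∈ Finset.range N, b :=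
            Finset.sum_le_sum fun k hk => hE2 k (Finset.mem_range.1 hk)
        _ = N * b := by simp
    linarith
  -- pointwise lower bound
  have hpt : ∀ ω, P.p ω ≠ 0 → a * (N - Zb ω) ≤ ∑ k ∈ Finset.range N, S k ω := by
    intro ω hω
    have h1 : a * (N - Zb ω) = ∑ k ∈ Finset.range N, a * (1 - (I1 k ω + I2 k ω)) := by
      rw [← Finset.mul_sum, Finset.sum_sub_distrib]
      simp [hZb]
    rw [h1]
    refine Finset.sum_le_sum fun k hk => ?_
    have hk' := Finset.mem_range.1 hk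
    have hS0 := hS k hk' ω hω
    simp only [hI1, hI2]
    by_cases hb : S k ω < min (s k ω + c) a
    · have hnot : ¬ (s k ω + c ≤ a ∧ min (s k ω + c) a ≤ S k ω) := fun h => absurd h.2 (not_le.2 hb)
      rw [if_neg hnot, if_pos hb]
      simpa using hS0
    · rw [if_neg hb]
      push Not at hb
      by_cases h2 : s k ω + c ≤ a
      · rw [if_pos ⟨h2, hb⟩]
        simpa using hS0
      · have hnot : ¬ (s k ω + c ≤ a ∧ min (s k ω + c) a ≤ S k ω) := fun h => h2 h.1
        rw [if_neg hnot]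
        push Not at h2
        rw [min_eq_right h2.le] at hb
        simpa using hb
  have hZnn : ∀ ω, P.p ω ≠ 0 → 0 ≤ Zb ω := fun ω _ =>
    Finset.sum_nonneg fun k _ => add_nonneg (hI1nn k ω) (hI2nn k ω)
  have hM := ent_markov P hZnn hlam
  refine le_trans (ent_pr_mono P fun ω hω hlt => ?_) (hM.trans ?_)
  · have h1 := hpt ω hω
    have h2 : a * (N - Zb ω) < a * (N - lam) := lt_of_le_of_lt h1 hlt
    by_contra hcon
    push Not at hcon
    have : a * (N - lam) ≤ a * (N - Zb ω) := mul_le_mul_of_nonneg_left (by linarith) ha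
    linarith
  · exact div_le_div_of_nonneg_right hEZ hlam.le

end Claimed.Agent.R256
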