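import Claimed.Agent.R256.Fp.Win

/-!
# Row 256, unit FP, file 5: the fibre projection lemma.        (architect helper243)

`fp_win`  : the window lemma `ic_wl` in the window `k`, with the good events removed.
`fp_main` : **FP**.   `fp_main_ent` : entropy form.   `fp_mesh` : how a consumer gets `IcGood` at all levels from scores on a mesh.

PLAN of `fp_main`.  `thr = min 1 (d+g)`, `L = log 2`, `c = 2A+4`.  If `thr ≤ ξ` the event is empty on the support (`ent_surC_nonneg`).  Else: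
 `(χw, n₁)` := `ic_wl d g (ξ/4) (A+1)`;  `ε := min (χw/2) (ξ/4)`;  `N₀ := ⌈16/(ξ² χw)⌉ + 1`;  given `N ≥ N₀`:  `χ := min (χw/4) (small)`, `n` large.
 `fp_win` (with `χ' = χw`, `τ = χw n L/8`) gives `b` with `b ≤ ξ²/8`;   `fp_abs` with `S k = fpSc (k n)`, `s k = fpFs (k n)`, `c := (χw - ε) n L ≥ χw n L/2`, `a := (thr - ξ/4 - ε) n L ≥ (thr - ξ/2) n L`,
 `Bud := n L + (N+1) log c` (`fp_budget`), `e0 := χ n L + 3 log c + 1` (`fp_neg`), `lam := ξ N/2`;   `a (N - lam) ≥ (thr - ξ) N n L`;   `fp_chain` on the support.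
 The bound `((Bud + N e0)/c + N b)/lam ≤ 4/(ξ χw N) (1 + 1/N ...) + 4 χ/(ξ χw) + O_A(1)/(ξ χw n L) + 2 b/ξ ≤ ξ`.
-/

set_option autoImplicit false

namespace Claimed.Agent.R256

open Claimed.Agent.R255 Claimed.Agent.R255.FLaw
open Classical

/-- the window lemma in the window `k`.   `χw, n₁` are the data of `ic_wl d g ξ₁ (A+1)` (hypothesis `hwl`). -/
theorem fp_win {Ω : Type} [Fintype Ω] {δ β' κ : Type} {P : FLaw Ω} {q : Ω → ℝ × ℝ} {t : Ω → ℝ} {D : Ω → δ} {Tg : Ω → β'}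
    {Qn : Ω → κ} {A d g χ : ℝ} {N n : ℕ} (H : FpHyp P q t D Tg Qn A d g χ N n) {k : ℕ} (hk : k < N) {χw ξ₁ ε τ : ℝ}
    (hε : 0 < ε) (hχw : 0 < χw) (hn : 0 < n)
    (hτ : χ * n * Real.log 2 + 2 * τ + Real.log (2 * A + 4) ≤ χw * n * Real.log 2) (hτ0 : 0 ≤ τ)
    (hwl : P.pr (fun ω => IcGood P (icX (fpQ q t (k * n))) (pair (fpTube q t (k * n)) D) d χw n ω ∧
          IcGood P (icS (fpS t (k * n))) (pair (fpTube q t (k * n)) D) g χw n ω ∧
          P.surC (icU (fpQ q t (k * n)) (fpS t (k * n)) n) (pair Tg (pair (fpTube q t (k * n)) D)) ω <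
            min (P.surC (icQ (fpQ q t (k * n)) n) (pair (icX (fpQ q t (k * n)) n) (pair (fpTube q t (k * n)) D)) ω
                + χw * n * Real.log 2) ((min 1 (d + g) - ξ₁) * n * Real.log 2) - ε * n * Real.log 2)
        ≤ (1 / ε + 2) * ((P.miC (icQ (fpQ q t (k * n)) n) Tg (pair (fpTube q t (k * n)) D) + Real.log 2)
            / (χw * n * Real.log 2))) :
    P.pr (fun ω => fpSc P q t D Tg (k * n) n ω <
        min (fpFs P q t D (k * n) n ω + (χw - ε) * n * Real.log 2) ((min 1 (d + g) - ξ₁ - ε) * n * Real.log 2))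
      ≤ 2 * χ + (2 * n + 3) * Real.exp (-τ)
        + (1 / ε + 2) * ((χ * n * Real.log 2 + 2 * Real.log (2 * A + 4) + Real.log 2) / (χw * n * Real.log 2)) := by
  have hL : 0 < Real.log 2 := Real.log_pos one_lt_two
  have hn0 : (0 : ℝ) < n := by exact_mod_cast hn
  obtain ⟨ω₀, -⟩ := ent_exists_supp P
  have hA0 : 0 ≤ A := le_trans (abs_nonneg _) (H.bd ω₀).1
  have hl0 : 0 ≤ Real.log (2 * A + 4) := Real.log_nonneg (by linarith)
  have hX := fp_goodX H hk (χ' := χw) (τ := τ) (by linarith)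
  have hS := fp_goodS H hk (χ' := χw) (τ := τ) hτ
  have hmi := fp_mi H hk
  have h3 : (1 / ε + 2) * ((P.miC (icQ (fpQ q t (k * n)) n) Tg (pair (fpTube q t (k * n)) D) + Real.log 2)
            / (χw * n * Real.log 2))
      ≤ (1 / ε + 2) * ((χ * n * Real.log 2 + 2 * Real.log (2 * A + 4) + Real.log 2) / (χw * n * Real.log 2)) := by
    refine mul_le_mul_of_nonneg_left ?_ (by positivity)
    exact div_le_div_of_nonneg_right (by linarith) (by positivity)
  have hor1 := ent_pr_or_le P (fun ω => ¬ IcGood P (icX (fpQ q t (k * n))) (pair (fpTube q t (k * n)) D) d χw n ω)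
    (fun ω => ¬ IcGood P (icS (fpS t (k * n))) (pair (fpTube q t (k * n)) D) g χw n ω)
  have hor2 := ent_pr_or_le P (fun ω => ¬ IcGood P (icX (fpQ q t (k * n))) (pair (fpTube q t (k * n)) D) d χw n ω ∨
      ¬ IcGood P (icS (fpS t (k * n))) (pair (fpTube q t (k * n)) D) g χw n ω)
    (fun ω => IcGood P (icX (fpQ q t (k * n))) (pair (fpTube q t (k * n)) D) d χw n ω ∧
          IcGood P (icS (fpS t (k * n))) (pair (fpTube q t (k * n)) D) g χw n ω ∧
          P.surC (icU (fpQ q t (k * n)) (fpS t (k * n)) n) (pair Tg (pair (fpTube q t (k * n)) D)) ω <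
            min (P.surC (icQ (fpQ q t (k * n)) n) (pair (icX (fpQ q t (k * n)) n) (pair (fpTube q t (k * n)) D)) ω
                + χw * n * Real.log 2) ((min 1 (d + g) - ξ₁) * n * Real.log 2) - ε * n * Real.log 2)
  refine le_trans (ent_pr_mono P fun ω _ hω => ?_) (hor2.trans ?_)
  · by_cases g1 : IcGood P (icX (fpQ q t (k * n))) (pair (fpTube q t (k * n)) D) d χw n ω
    · by_cases g2 : IcGood P (icS (fpS t (k * n))) (pair (fpTube q t (k * n)) D) g χw n ω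
      · refine Or.inr ⟨g1, g2, lt_of_lt_of_le hω (le_of_eq ?_)⟩
        have e1 : fpFs P q t D (k * n) n ω + (χw - ε) * n * Real.log 2
            = (P.surC (icQ (fpQ q t (k * n)) n) (pair (icX (fpQ q t (k * n)) n) (pair (fpTube q t (k * n)) D)) ω
                + χw * n * Real.log 2) - ε * n * Real.log 2 := by
          unfold fpFs; ring
        have e2 : (min 1 (d + g) - ξ₁ - ε) * n * Real.log 2
            = (min 1 (d + g) - ξ₁) * n * Real.log 2 - ε * n * Real.log 2 := by ring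
        rw [e1, e2, min_sub_sub_right]
      · exact Or.inl (Or.inr g2)
    · exact Or.inl (Or.inl g1)
  · have e3 : (2 * (n : ℝ) + 3) * Real.exp (-τ) = (n + 1) * Real.exp (-τ) + (n + 2) * Real.exp (-τ) := by ring
    linarith

/-- numerics: `(2n+3) exp (-c₁ n)` is small -/
theorem fp_aux_exp_small {c₁ η : ℝ} (hc : 0 < c₁) (hη : 0 < η) {n : ℕ} (hn1 : 1 ≤ n) (hn : 10 / (c₁ ^ 2 * η) ≤ n) :
    (2 * (n : ℝ) + 3) * Real.exp (-(c₁ * n)) ≤ η := by
  have hn1' : (1 : ℝ) ≤ n := by exact_mod_cast hn1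
  have hn0 : (0 : ℝ) < n := by linarith
  have hy : 0 < c₁ * n := by positivity
  have h1 := Real.quadratic_le_exp_of_nonneg hy.le
  have h2 : (c₁ * n) ^ 2 / 2 ≤ Real.exp (c₁ * n) := by linarith
  rw [Real.exp_neg, ← div_eq_mul_inv, div_le_iff₀ (Real.exp_pos _)]
  rw [div_le_iff₀ (by positivity)] at hn
  calc 2 * (n : ℝ) + 3 ≤ 5 * n := by linarith
    _ ≤ η * ((c₁ * n) ^ 2 / 2) := by
        have := mul_le_mul_of_nonneg_right hn hn0.le
        nlinarith
    _ ≤ η * Real.exp (c₁ * n) := mul_le_mul_of_nonneg_left h2 hη.le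

/-- numerics: the exceptional mass of one window -/
theorem fp_aux_b {ξ χw K χ l₀ L x E : ℝ} (hχw : 0 < χw) (hK : 0 < K) (hx : 0 < x)
    (h1 : χ ≤ ξ ^ 2 / 64) (h2 : E ≤ ξ ^ 2 / 32) (h3 : χ ≤ ξ ^ 2 * χw / (32 * K))
    (h4 : 32 * K * (2 * l₀ + L) ≤ ξ ^ 2 * χw * x) :
    2 * χ + E + K * ((χ * x + 2 * l₀ + L) / (χw * x)) ≤ ξ ^ 2 / 8 := by
  have h5 : K * ((χ * x + 2 * l₀ + L) / (χw * x)) ≤ ξ ^ 2 / 16 := by
    rw [← mul_div_assoc, div_le_iff₀ (by positivity)]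
    rw [le_div_iff₀ (by positivity)] at h3
    have := mul_le_mul_of_nonneg_right h3 hx.le
    nlinarith
  linarith

/-- numerics: the final bound -/
theorem fp_aux_final {ξ χw ε χ l₀ x Nr b : ℝ} (hξ : 0 < ξ) (hχw : 0 < χw) (hε : ε ≤ χw / 2) (hl : 0 ≤ l₀)
    (hx : 0 < x) (hN1 : 1 ≤ Nr) (hN : 16 ≤ ξ ^ 2 * χw * Nr) (hχ : χ ≤ ξ ^ 2 * χw / 16)
    (hx2 : 16 * (5 * l₀ + 1) ≤ ξ ^ 2 * χw * x) (hb : b ≤ ξ ^ 2 / 8) :
    ((x + (Nr + 1) * l₀ + Nr * (χ * x + 3 * l₀ + 1)) / ((χw - ε) * x) + Nr * b) / (ξ * Nr / 2) ≤ ξ := by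
  have hN0 : 0 < Nr := by linarith
  have hc : χw / 2 * x ≤ (χw - ε) * x := mul_le_mul_of_nonneg_right (by linarith) hx.le
  have hc0 : 0 < χw / 2 * x := by positivity
  rw [div_le_iff₀ (by positivity)]
  have h1 : (x + (Nr + 1) * l₀ + Nr * (χ * x + 3 * l₀ + 1)) / ((χw - ε) * x) ≤ 3 * ξ ^ 2 * Nr / 8 := by
    rw [div_le_iff₀ (lt_of_lt_of_le hc0 hc)]
    have h2 : x + (Nr + 1) * l₀ + Nr * (χ * x + 3 * l₀ + 1) ≤ 3 * ξ ^ 2 * Nr / 8 * (χw / 2 * x) := by
      have a1 : x ≤ ξ ^ 2 * χw * Nr * x / 16 := by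
        have := mul_le_mul_of_nonneg_right hN hx.le
        linarith
      have a2 : Nr * (χ * x) ≤ ξ ^ 2 * χw * Nr * x / 16 := by
        have h5 : χ * x ≤ ξ ^ 2 * χw / 16 * x := mul_le_mul_of_nonneg_right hχ hx.le
        have := mul_le_mul_of_nonneg_left h5 hN0.le
        linarith
      have a3 : (Nr + 1) * l₀ + Nr * (3 * l₀ + 1) ≤ Nr * (5 * l₀ + 1) := by nlinarith
      have a4 : Nr * (5 * l₀ + 1) ≤ ξ ^ 2 * χw * Nr * x / 16 := by
        have := mul_le_mul_of_nonneg_left hx2 hN0.le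
        linarith
      linarith
    exact h2.trans (mul_le_mul_of_nonneg_left hc (by positivity))
  have h3 : Nr * b ≤ Nr * (ξ ^ 2 / 8) := mul_le_mul_of_nonneg_left hb hN0.le
  nlinarith

/-- numerics: the threshold -/
theorem fp_aux_thr {m ξ ε : ℝ} (hξ : 0 < ξ) (hm : ξ < m) (hm1 : m ≤ 1) (hε : ε ≤ ξ / 4) :
    m - ξ ≤ (m - ξ / 4 - ε) * (1 - ξ / 2) := by
  have h3 : m - ξ / 2 ≤ m - ξ / 4 - ε := by linarith
  have h4 : 0 ≤ 1 - ξ / 2 := by linarith
  have h5 := mul_le_mul_of_nonneg_right h3 h4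
  have h6 : 0 ≤ ξ / 2 * (1 - m) := mul_nonneg (by positivity) (by linarith)
  have h7 : (m - ξ / 2) * (1 - ξ / 2) = m - ξ + ξ / 2 * (1 - m) + ξ ^ 2 / 4 := by ring
  have h8 := sq_nonneg ξ
  linarith

/-- **FP** (fibre projection lemma; replaces (cond) ⟹ (inc)). -/
theorem fp_main (d g ξ A : ℝ) (hd : 0 < d) (hg : 0 < g) (hξ : 0 < ξ) (hA : 1 ≤ A) :
    ∃ N₀ : ℕ, ∀ N : ℕ, N₀ ≤ N → ∃ χ : ℝ, 0 < χ ∧ ∃ n₁ : ℕ, ∀ n : ℕ, n₁ ≤ n →
      ∀ (Ω δ β' κ : Type) [Fintype Ω] (P : FLaw Ω) (q : Ω → ℝ × ℝ) (t : Ω → ℝ) (D : Ω → δ) (Tg : Ω → β') (Qn : Ω → κ),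
        FpHyp P q t D Tg Qn A d g χ N n →
        P.pr (fun ω => P.surC (icU q t (N * n)) (pair Tg D) ω < (min 1 (d + g) - ξ) * (N * n) * Real.log 2) ≤ ξ := by
  have hL : 0 < Real.log 2 := Real.log_pos one_lt_two
  by_cases hcase : min 1 (d + g) ≤ ξ
  · refine ⟨0, fun N _ => ⟨1, one_pos, 0, fun n _ Ω δ β' κ _ P q t D Tg Qn _ => ?_⟩⟩
    rw [ent_pr_eq_zero P fun ω hω hlt => ?_]
    · exact hξ.le
    · have h0 := ent_surC_nonneg P (icU q t (N * n)) (pair Tg D) hω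
      have h1 : 0 ≤ ((N : ℝ) * n) * Real.log 2 := by positivity
      have h2 : (min 1 (d + g) - ξ) * (N * n) * Real.log 2 ≤ 0 := by
        rw [mul_assoc]
        exact mul_nonpos_of_nonpos_of_nonneg (by linarith) h1
      linarith
  push Not at hcase
  have hthr1 : min 1 (d + g) ≤ 1 := min_le_left _ _
  obtain ⟨χw, hχw, nw, Hwl⟩ := ic_wl d g (ξ / 4) (A + 1) hd hg (by positivity) (by linarith)
  obtain ⟨ε, hεdef⟩ : ∃ ε : ℝ, ε = min (χw / 2) (ξ / 4) := ⟨_, rfl⟩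
  have hε : 0 < ε := by rw [hεdef]; exact lt_min (by positivity) (by positivity)
  have hε1 : ε ≤ χw / 2 := by rw [hεdef]; exact min_le_left _ _
  have hε2 : ε ≤ ξ / 4 := by rw [hεdef]; exact min_le_right _ _
  obtain ⟨K, hKdef⟩ : ∃ K : ℝ, K = 1 / ε + 2 := ⟨_, rfl⟩
  have hK : 0 < K := by rw [hKdef]; positivity
  obtain ⟨l₀, hl₀def⟩ : ∃ l₀ : ℝ, l₀ = Real.log (2 * A + 4) := ⟨_, rfl⟩
  have hl₀ : 0 ≤ l₀ := by rw [hl₀def]; exact Real.log_nonneg (by linarith)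
  obtain ⟨N₀, hN₀⟩ := exists_nat_ge (16 / (ξ ^ 2 * χw))
  refine ⟨max N₀ 1, fun N hN => ?_⟩
  obtain ⟨χ, hχdef⟩ : ∃ χ : ℝ, χ = min (min (χw / 4) (ξ ^ 2 * χw / 16)) (min (ξ ^ 2 / 64) (ξ ^ 2 * χw / (32 * K))) := ⟨_, rfl⟩
  have hχ : 0 < χ := by
    rw [hχdef]
    exact lt_min (lt_min (by positivity) (by positivity)) (lt_min (by positivity) (by positivity))
  have hχ1 : χ ≤ χw / 4 := by rw [hχdef]; exact (min_le_left _ _).trans (min_le_left _ _)
  have hχ2 : χ ≤ ξ ^ 2 * χw / 16 := by rw [hχdef]; exact (min_le_left _ _).trans (min_le_right _ _)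
  have hχ3 : χ ≤ ξ ^ 2 / 64 := by rw [hχdef]; exact (min_le_right _ _).trans (min_le_left _ _)
  have hχ4 : χ ≤ ξ ^ 2 * χw / (32 * K) := by rw [hχdef]; exact (min_le_right _ _).trans (min_le_right _ _)
  obtain ⟨n2, hn2⟩ := exists_nat_ge (2 * l₀ / (χw * Real.log 2))
  obtain ⟨n3, hn3⟩ := exists_nat_ge (16 * (5 * l₀ + 1) / (ξ ^ 2 * χw * Real.log 2))
  obtain ⟨n4, hn4⟩ := exists_nat_ge (32 * K * (2 * l₀ + Real.log 2) / (ξ ^ 2 * χw * Real.log 2))
  obtain ⟨n5, hn5⟩ := exists_nat_ge (10 / ((χw * Real.log 2 / 8) ^ 2 * (ξ ^ 2 / 32)))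
  refine ⟨χ, hχ, max (max nw 1) (max (max n2 n3) (max n4 n5)), fun n hn Ω δ β' κ _ P q t D Tg Qn H => ?_⟩
  have hnw : nw ≤ n := ((le_max_left _ _).trans (le_max_left _ _)).trans hn
  have hn1 : 1 ≤ n := ((le_max_right _ _).trans (le_max_left _ _)).trans hn
  have hn2' : (n2 : ℝ) ≤ n := by exact_mod_cast (((le_max_left _ _).trans (le_max_left _ _)).trans (le_max_right _ _)).trans hn
  have hn3' : (n3 : ℝ) ≤ n := by exact_mod_cast (((le_max_right _ _).trans (le_max_left _ _)).trans (le_max_right _ _)).trans hn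
  have hn4' : (n4 : ℝ) ≤ n := by exact_mod_cast (((le_max_left _ _).trans (le_max_right _ _)).trans (le_max_right _ _)).trans hn
  have hn5' : (n5 : ℝ) ≤ n := by exact_mod_cast (((le_max_right _ _).trans (le_max_right _ _)).trans (le_max_right _ _)).trans hn
  have hnpos : (0 : ℝ) < n := by exact_mod_cast hn1
  have hN1 : (1 : ℝ) ≤ N := by exact_mod_cast (le_max_right _ _).trans hN
  have hNN : (N₀ : ℝ) ≤ N := by exact_mod_cast (le_max_left _ _).trans hN
  obtain ⟨x, hxdef⟩ : ∃ x : ℝ, x = n * Real.log 2 := ⟨_, rfl⟩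
  have hx : 0 < x := by rw [hxdef]; positivity
  -- the conditions on `n`
  have c1 : l₀ ≤ χw * x / 2 := by
    have h1 := hn2.trans hn2'
    rw [div_le_iff₀ (by positivity)] at h1
    rw [hxdef]; linarith
  have c2 : 16 * (5 * l₀ + 1) ≤ ξ ^ 2 * χw * x := by
    have h1 := hn3.trans hn3'
    rw [div_le_iff₀ (by positivity)] at h1
    rw [hxdef]; linarith
  have c4 : 32 * K * (2 * l₀ + Real.log 2) ≤ ξ ^ 2 * χw * x := by
    have h1 := hn4.trans hn4'
    rw [div_le_iff₀ (by positivity)] at h1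
    rw [hxdef]; linarith
  have c3 : (2 * (n : ℝ) + 3) * Real.exp (-(χw * x / 8)) ≤ ξ ^ 2 / 32 := by
    have h1 := fp_aux_exp_small (c₁ := χw * Real.log 2 / 8) (η := ξ ^ 2 / 32) (by positivity) (by positivity) hn1 (hn5.trans hn5')
    have e : χw * Real.log 2 / 8 * n = χw * x / 8 := by rw [hxdef]; ring
    rwa [e] at h1
  have cN : 16 ≤ ξ ^ 2 * χw * N := by
    have h1 := hN₀.trans hNN
    rw [div_le_iff₀ (by positivity)] at h1
    linarith
  -- the tag determines the rescaled slope cell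
  have htag : ∀ k < N, ∀ ω ω', Tg ω = Tg ω' → icS (fpS t (k * n)) n ω = icS (fpS t (k * n)) n ω' := by
    intro k hk ω ω' h
    have h1 := H.tag ω ω' h
    have hle : k * n + n ≤ N * n := by
      have h2 : (k + 1) * n ≤ N * n := Nat.mul_le_mul_right n hk
      rwa [Nat.succ_mul] at h2
    have h2 : icS t (k * n + n) ω = icS t (k * n + n) ω' := ic_cell_nest hle h1
    have h3 : icS t (k * n) ω = icS t (k * n) ω' := ic_cell_nest (le_trans (Nat.le_add_right _ _) hle) h1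
    rw [fp_icS, fp_icS, h2, h3]
  -- one window
  have hτ : χ * n * Real.log 2 + 2 * (χw * x / 8) + Real.log (2 * A + 4) ≤ χw * n * Real.log 2 := by
    have e1 : χ * n * Real.log 2 = χ * x := by rw [hxdef]; ring
    have e2 : χw * n * Real.log 2 = χw * x := by rw [hxdef]; ring
    rw [e1, e2, ← hl₀def]
    have := mul_le_mul_of_nonneg_right hχ1 hx.le
    linarith
  have hwin : ∀ k < N, P.pr (fun ω => fpSc P q t D Tg (k * n) n ω <
        min (fpFs P q t D (k * n) n ω + (χw - ε) * n * Real.log 2) ((min 1 (d + g) - ξ / 4 - ε) * n * Real.log 2))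
      ≤ ξ ^ 2 / 8 := by
    intro k hk
    have h1 := fp_win H hk hε hχw hn1 hτ (by positivity)
      (Hwl n hnw ε hε Ω _ β' P (fpQ q t (k * n)) (fpS t (k * n)) (pair (fpTube q t (k * n)) D) Tg (fp_bd H.bd _) (htag k hk))
    refine h1.trans ?_
    have e1 : χ * n * Real.log 2 = χ * x := by rw [hxdef]; ring
    have e2 : χw * n * Real.log 2 = χw * x := by rw [hxdef]; ring
    rw [e1, e2, ← hl₀def, ← hKdef]
    exact fp_aux_b hχw hK hx hχ3 c3 hχ4 c4
  -- the budget argument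
  have ha : 0 ≤ (min 1 (d + g) - ξ / 4 - ε) * n * Real.log 2 := by
    have : 0 ≤ min 1 (d + g) - ξ / 4 - ε := by linarith
    positivity
  have hc : 0 < (χw - ε) * n * Real.log 2 := by
    have : 0 < χw - ε := by linarith
    positivity
  have habs := fp_abs P N (fun k => fpSc P q t D Tg (k * n) n) (fun k => fpFs P q t D (k * n) n) ha hc
    (lam := ξ * N / 2) (by positivity) (fun k _ ω hω => ent_surC_nonneg P _ _ hω) (fp_budget H hA) (fun k hk => fp_neg H hk) hwin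
  refine le_trans (ent_pr_mono P fun ω hω hlt => ?_) (habs.trans ?_)
  · refine lt_of_le_of_lt (fp_chain H hω) (lt_of_lt_of_le hlt ?_)
    have e1 : (min 1 (d + g) - ξ) * (N * n) * Real.log 2 = (min 1 (d + g) - ξ) * (N * x) := by rw [hxdef]; ring
    have e2 : (min 1 (d + g) - ξ / 4 - ε) * n * Real.log 2 * (N - ξ * N / 2)
        = ((min 1 (d + g) - ξ / 4 - ε) * (1 - ξ / 2)) * (N * x) := by rw [hxdef]; ring
    rw [e1, e2]
    refine mul_le_mul_of_nonneg_right ?_ (by positivity)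
    exact fp_aux_thr hξ hcase hthr1 hε2
  · have e1 : χ * n * Real.log 2 = χ * x := by rw [hxdef]; ring
    have e2 : (χw - ε) * n * Real.log 2 = (χw - ε) * x := by rw [hxdef]; ring
    rw [e1, e2, ← hl₀def, ← hxdef]
    exact fp_aux_final hξ hχw hε1 hl₀ hx hN1 cN hχ2 c2 le_rfl

/-- entropy form -/
theorem fp_main_ent (d g ξ A : ℝ) (hd : 0 < d) (hg : 0 < g) (hξ : 0 < ξ) (hA : 1 ≤ A) :
    ∃ N₀ : ℕ, ∀ N : ℕ, N₀ ≤ N → ∃ χ : ℝ, 0 < χ ∧ ∃ n₁ : ℕ, ∀ n : ℕ, n₁ ≤ n →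
      ∀ (Ω δ β' κ : Type) [Fintype Ω] (P : FLaw Ω) (q : Ω → ℝ × ℝ) (t : Ω → ℝ) (D : Ω → δ) (Tg : Ω → β') (Qn : Ω → κ),
        FpHyp P q t D Tg Qn A d g χ N n →
        (min 1 (d + g) - ξ) * (N * n) * Real.log 2 ≤ P.entC (icU q t (N * n)) (pair Tg D) := by
  have hL : 0 < Real.log 2 := Real.log_pos one_lt_two
  obtain ⟨N₀, H₀⟩ := fp_main d g (ξ / 2) A hd hg (by positivity) hA
  refine ⟨N₀, fun N hN => ?_⟩
  obtain ⟨χ, hχ, n₁, H₁⟩ := H₀ N hN
  refine ⟨χ, hχ, n₁, fun n hn Ω δ β' κ _ P q t D Tg Qn H => ?_⟩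
  have hpr := H₁ n hn Ω δ β' κ P q t D Tg Qn H
  have hy : 0 ≤ ((N : ℝ) * n) * Real.log 2 := by positivity
  have hent := ent_entC_nonneg P (icU q t (N * n)) (pair Tg D)
  have hthr1 : min 1 (d + g) ≤ 1 := min_le_left _ _
  by_cases hcase : min 1 (d + g) ≤ ξ
  · refine le_trans ?_ hent
    rw [mul_assoc]
    exact mul_nonpos_of_nonpos_of_nonneg (by linarith) hy
  push Not at hcase
  have h1 := ent_ev_ge_of_bad P (f := P.surC (icU q t (N * n)) (pair Tg D))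
    (fun ω => P.surC (icU q t (N * n)) (pair Tg D) ω < (min 1 (d + g) - ξ / 2) * (N * n) * Real.log 2)
    (c := (min 1 (d + g) - ξ / 2) * (N * n) * Real.log 2) (M := 0)
    (fun ω _ h => not_lt.1 h) (fun ω hω _ => ent_surC_nonneg P _ _ hω)
  rw [← ent_entC_eq_ev, zero_mul, add_zero] at h1
  refine le_trans ?_ h1
  have hv : 0 ≤ (min 1 (d + g) - ξ / 2) * (N * n) * Real.log 2 := by
    rw [mul_assoc]
    exact mul_nonneg (by linarith) hy
  refine le_trans ?_ (mul_le_mul_of_nonneg_left (show 1 - ξ / 2 ≤ _ by linarith) hv)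
  have e1 : (min 1 (d + g) - ξ) * (N * n) * Real.log 2 = (min 1 (d + g) - ξ) * ((N * n) * Real.log 2) := by ring
  have e2 : (min 1 (d + g) - ξ / 2) * (N * n) * Real.log 2 * (1 - ξ / 2)
      = ((min 1 (d + g) - ξ / 4 - ξ / 4) * (1 - ξ / 2)) * ((N * n) * Real.log 2) := by ring
  rw [e1, e2]
  exact mul_le_mul_of_nonneg_right (fp_aux_thr hξ hcase hthr1 le_rfl) hy

/-- from a mesh to all levels: `n = R m`, scores at the levels `i m`, `i ≤ R`, nested names. -/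
theorem fp_mesh {Ω : Type} [Fintype Ω] {α δ : Type} (P : FLaw Ω) (X : ℕ → Ω → α) (D : Ω → δ) {e χ : ℝ} {R m : ℕ} (he : 0 ≤ e)
    (hR : 0 < R) (hX : ∀ j ω ω', X (j + 1) ω = X (j + 1) ω' → X j ω = X j ω')
    (h : ∀ i ≤ R, P.pr (fun ω => P.surC (X (i * m)) D ω < (e * (i * m) - χ * (R * m)) * Real.log 2) ≤ χ) :
    P.pr (fun ω => ¬ IcGood P X D e (χ + e / R) (R * m) ω) ≤ (R + 1) * χ := by
  have hl2 : 0 < Real.log 2 := Real.log_pos one_lt_two
  have hR0 : (0 : ℝ) < R := by exact_mod_cast hR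
  have hnest : ∀ k n, k ≤ n → ∀ ω ω', X n ω = X n ω' → X k ω = X k ω' := by
    intro k n hkn
    induction n, hkn using Nat.le_induction with
    | base => exact fun _ _ h => h
    | succ n _ ih => exact fun ω ω' h => ih ω ω' (hX n ω ω' h)
  have h1 : P.pr (fun ω => ¬ IcGood P X D e (χ + e / R) (R * m) ω)
      ≤ P.pr (fun ω => ∃ i ∈ Finset.range (R + 1),
          P.surC (X (i * m)) D ω < (e * (i * m) - χ * (R * m)) * Real.log 2) := by
    refine ent_pr_mono P fun ω hω hbad => ?_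
    by_contra hcon
    push Not at hcon
    refine hbad fun k hk => ?_
    have hkb : k / m * m ≤ k := Nat.div_mul_le_self k m
    have hkb' : k ≤ k / m * m + m := by
      rcases Nat.eq_zero_or_pos m with hb | hb
      · subst hb; simpa using hk
      · have h2 := Nat.div_add_mod k m
        have h3 := Nat.mod_lt k hb
        rw [mul_comm] at h2
        omega
    have hjN : k / m ≤ R := by
      rcases Nat.eq_zero_or_pos m with hb | hb
      · subst hb; simp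
      · exact Nat.div_le_of_le_mul (by rw [mul_comm]; exact hk)
    have h4 := hcon (k / m) (Finset.mem_range.2 (Nat.lt_succ_of_le hjN))
    have h5 : P.surC (X (k / m * m)) D ω ≤ P.surC (X k) D ω := by
      rw [ent_surC_eq_sub P _ _ hω, ent_surC_eq_sub P _ _ hω]
      have h6 : P.fib (pair (X k) D) ω ≤ P.fib (pair (X (k / m * m)) D) ω := by
        refine ent_fib_mono P _ _ ω fun ω' _ h' => ?_
        simp only [FLaw.pair, Prod.mk.injEq] at h' ⊢
        exact ⟨hnest _ _ hkb _ _ h'.1, h'.2⟩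
      have h7 := Real.log_le_log (ent_fib_pos P (pair (X k) D) hω) h6
      linarith
    refine le_trans ?_ (h4.trans h5)
    refine mul_le_mul_of_nonneg_right ?_ hl2.le
    have h6 : (k : ℝ) ≤ ((k / m : ℕ) : ℝ) * m + m := by exact_mod_cast hkb'
    have h7 : e * (k : ℝ) ≤ e * (((k / m : ℕ) : ℝ) * m + m) := mul_le_mul_of_nonneg_left h6 he
    have h8 : (χ + e / R) * ((R * m : ℕ) : ℝ) = χ * (R * m) + e * m := by
      push_cast
      field_simp
    rw [h8]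
    linarith
  refine h1.trans ((ent_pr_exists_le P _ _).trans ?_)
  refine (Finset.sum_le_sum fun i hi => h i (Nat.lt_succ_iff.1 (Finset.mem_range.1 hi))).trans ?_
  simp

end Claimed.Agent.R256
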