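import Claimed.Agent.R256.Fp.Kit
import Claimed.Agent.R256.Fp.Geo

/-!
# Row 256, unit FP, file 4: the six facts on the windows `m = k n`, `k < N`, under `FpHyp`.        (architect helper243)

Notation: `S_j = icS t j`, `U_j = icU q t j`, `X_j = icX q j`, `Tube = (S_m, U_m)`, `L = log 2`, `c = 2A+4`.   Nestedness of cells: `ic_cell_nest` / `ic_aux_cell_div` (`Inc/CoreA`).
`Tg` determines `S_{Nn}`, hence every `S_j`, `j ≤ N n`;  `U_{Nn}` determines every `U_j`, `j ≤ N n`;  `Qn` determines `icQ q j`, `j ≤ N n`.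
* `fp_goodX`.  For each `j ≤ n`: `ic_lp` with `U := X_j`, `D := (Tube, D)`, `D' := (U_{Nn}, Tg)`;  `((U_{Nn},Tg),(Tube,D))` and `((U_{Nn},Tg),D)` generate the same partition (`ent_surC_congr`);
   `fp_icX`.  Union bound over `j ≤ n` (`ent_pr_exists_le` or induction) + the exceptional event of (F1).
* `fp_goodS`.  `V_j := icS (fpS t m) j` and `S_{m+j}` determine each other given `S_m` (`fp_icS`).  (1) `ic_lp`: `sur(V_j|Tube,D) ≥ sur(V_j|Qn,Tube,D) - τ`;
   (2) at points of positive mass `sur(V|W,Y) ≥ sur(V|Y) - sur(W|Y)` with `W = U_m`, `Y = (S_m,Qn,D)` (`ent_surC_swap` + `ent_surC_nonneg`);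
   (3) `sur(U_m|S_m,Qn,D) ≤ log c + τ` off `exp(-τ)` (`ent_surC_tail` + `fp_list_tube`);  (4) (F2).
* `fp_mi`.  `Y = icQ (fpQ q t m) n`.  `I(Y;Tg|Tube,D) ≤ I((Y,Qn);Tg|Tube,D) = I(Qn;Tg|Tube,D) + I(Y;Tg|Qn,Tube,D) ≤ I(Qn;Tg|Tube,D) + H(Y|Qn,Tube,D)`, last term `≤ log c` (`fp_list_cell`);
   `I(Qn;Tg|S_m,U_m,D) ≤ I((Qn,U_m);Tg|S_m,D) = I(Qn;Tg|S_m,D) + I(U_m;Tg|Qn,S_m,D) ≤ I(Qn;Tg|S_m,D) + log c` (`fp_list_tube`);
   `I(Qn;Tg|S_m,D) ≤ I(Qn;Tg|D)` because `S_m` is a function of `Tg` (`ent_miC_chain`, `ent_miC_nonneg`).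
* `fp_neg`.  `fp_neg_abs` with `U := icU (fpQ) (fpS) n`, `Y := icQ (fpQ) n`, `X := icX (fpQ) n`, `G := Tg`, `Z := (Tube, D)`, `fp_list_fib`, `fp_mi`.
* `fp_budget`.  `E fpSc = H(U'|Tg,Tube,D) = H(U_{m+n}|U_m,(Tg,D))` (`ent_entC_eq_ev`, `ent_entC_congr`, `fp_icU`);   `H(U_{m+n}|U_m,X_n,(Tg,D)) = H(U'|X_n,Tg,Tube,D) ≤ H(Y|X_n,Tg,Tube,D) + H(U'|Y,Tg,Tube,D)
   ≤ H(Y|X_n,Tube,D) + log c = E fpFs + log c` (`fp_list_proj`);   `fp_tele` with `U k := U_{k n}`, `X := X_n`, `Z := (Tg, D)`;  `fp_ent_col`.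
* `fp_chain`.  `fp_chain_abs` with `U k := U_{k n}`, `Z := (Tg, D)`;  `fpSc = sur(U_{m+n}|U_m,(Tg,D))` (`ent_surC_congr`, `fp_icU`, `S_m` is a function of `Tg`).
Statements FROZEN (ask helper243); auxiliary lemmas: prefix `fp_aux_`.
-/

set_option autoImplicit false

namespace Claimed.Agent.R256

open Claimed.Agent.R255 Claimed.Agent.R255.FLaw
open Classical

variable {Ω : Type} [Fintype Ω] {δ β' κ : Type} {P : FLaw Ω} {q : Ω → ℝ × ℝ} {t : Ω → ℝ} {D : Ω → δ} {Tg : Ω → β'} {Qn : Ω → κ}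
  {A d g χ : ℝ} {N n : ℕ}

omit [Fintype Ω] in
theorem fp_aux_nestS {t : Ω → ℝ} {j M : ℕ} (h : j ≤ M) {ω ω' : Ω} (e : icS t M ω = icS t M ω') : icS t j ω = icS t j ω' :=
  ic_cell_nest h e

omit [Fintype Ω] in
theorem fp_aux_nestU {q : Ω → ℝ × ℝ} {t : Ω → ℝ} {j M : ℕ} (h : j ≤ M) {ω ω' : Ω} (e : icU q t M ω = icU q t M ω') :
    icU q t j ω = icU q t j ω' :=
  ic_cell_nest h e

theorem fp_goodX (H : FpHyp P q t D Tg Qn A d g χ N n) {k : ℕ} (hk : k < N) {χ' τ : ℝ}
    (hτ : χ * n * Real.log 2 + τ ≤ χ' * n * Real.log 2) :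
    P.pr (fun ω => ¬ IcGood P (icX (fpQ q t (k * n))) (pair (fpTube q t (k * n)) D) d χ' n ω)
      ≤ χ + (n + 1) * Real.exp (-τ) := by
  have hmM : k * n ≤ N * n := Nat.mul_le_mul_right n hk.le
  have hsub : ∀ ω, P.p ω ≠ 0 → ¬ IcGood P (icX (fpQ q t (k * n))) (pair (fpTube q t (k * n)) D) d χ' n ω →
      (¬ IcGood P (icX q) (pair (pair (icU q t (N * n)) Tg) D) d χ n ω) ∨
      ∃ j ∈ Finset.range (n + 1), P.surC (icX q j) (pair (fpTube q t (k * n)) D) ω
        < P.surC (icX q j) (pair (pair (icU q t (N * n)) Tg) (pair (fpTube q t (k * n)) D)) ω - τ := by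
    intro ω _ hbad
    by_contra hcon
    push Not at hcon
    obtain ⟨h1, h2⟩ := hcon
    refine hbad fun j hj => ?_
    have h3 := h1 j hj
    have h4 := h2 j (Finset.mem_range.2 (by omega))
    have e : P.surC (icX q j) (pair (pair (icU q t (N * n)) Tg) D) ω
        = P.surC (icX q j) (pair (pair (icU q t (N * n)) Tg) (pair (fpTube q t (k * n)) D)) ω := by
      refine ent_surC_congr P _ _ _ _ ω (fun ω' _ => ?_) (fun ω' _ _ => Iff.rfl)
      simp only [FLaw.pair, fpTube, Prod.mk.injEq]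
      constructor
      · rintro ⟨⟨a, b⟩, c⟩
        exact ⟨⟨a, b⟩, ⟨fp_aux_nestS hmM (H.tag _ _ b), fp_aux_nestU hmM a⟩, c⟩
      · rintro ⟨⟨a, b⟩, _, c⟩
        exact ⟨⟨a, b⟩, c⟩
    rw [fp_icX]
    rw [e] at h3
    have e2 : (d * j - χ' * n) * Real.log 2 = d * j * Real.log 2 - χ' * n * Real.log 2 := by ring
    have e3 : (d * j - χ * n) * Real.log 2 = d * j * Real.log 2 - χ * n * Real.log 2 := by ring
    rw [e2]
    rw [e3] at h3
    linarith
  calc P.pr (fun ω => ¬ IcGood P (icX (fpQ q t (k * n))) (pair (fpTube q t (k * n)) D) d χ' n ω)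
      ≤ P.pr (fun ω => (¬ IcGood P (icX q) (pair (pair (icU q t (N * n)) Tg) D) d χ n ω) ∨
          ∃ j ∈ Finset.range (n + 1), P.surC (icX q j) (pair (fpTube q t (k * n)) D) ω
            < P.surC (icX q j) (pair (pair (icU q t (N * n)) Tg) (pair (fpTube q t (k * n)) D)) ω - τ) :=
        ent_pr_mono P hsub
    _ ≤ P.pr (fun ω => ¬ IcGood P (icX q) (pair (pair (icU q t (N * n)) Tg) D) d χ n ω)
        + P.pr (fun ω => ∃ j ∈ Finset.range (n + 1), P.surC (icX q j) (pair (fpTube q t (k * n)) D) ω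
            < P.surC (icX q j) (pair (pair (icU q t (N * n)) Tg) (pair (fpTube q t (k * n)) D)) ω - τ) :=
        ent_pr_or_le P _ _
    _ ≤ χ + ∑ _j ∈ Finset.range (n + 1), Real.exp (-τ) := by
        refine add_le_add H.time ((ent_pr_exists_le P _ _).trans (Finset.sum_le_sum fun j _ => ?_))
        exact ic_lp P (icX q j) (pair (fpTube q t (k * n)) D) (pair (icU q t (N * n)) Tg) τ
    _ = χ + (n + 1) * Real.exp (-τ) := by
        rw [Finset.sum_const, Finset.card_range, nsmul_eq_mul]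
        push_cast
        ring

theorem fp_goodS (H : FpHyp P q t D Tg Qn A d g χ N n) {k : ℕ} (hk : k < N) {χ' τ : ℝ}
    (hτ : χ * n * Real.log 2 + 2 * τ + Real.log (2 * A + 4) ≤ χ' * n * Real.log 2) :
    P.pr (fun ω => ¬ IcGood P (icS (fpS t (k * n))) (pair (fpTube q t (k * n)) D) g χ' n ω)
      ≤ χ + (n + 2) * Real.exp (-τ) := by
  have hmM : k * n ≤ N * n := Nat.mul_le_mul_right n hk.le
  have hA0 : 0 ≤ A := by
    obtain ⟨ω, _⟩ := ent_exists_supp P
    exact (abs_nonneg _).trans (H.bd ω).1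
  have hc0 : 0 < 2 * A + 4 := by linarith
  have hlist := fp_list_tube P D Qn H.bd H.pt hmM
  have hsub : ∀ ω, P.p ω ≠ 0 → ¬ IcGood P (icS (fpS t (k * n))) (pair (fpTube q t (k * n)) D) g χ' n ω →
      ((¬ IcGood P (fun j => icS t (k * n + j)) (pair (pair (icS t (k * n)) Qn) D) g χ n ω) ∨
      Real.log (2 * A + 4) + τ < P.surC (icU q t (k * n)) (pair (pair (icS t (k * n)) Qn) D) ω) ∨
      ∃ j ∈ Finset.range (n + 1), P.surC (icS (fpS t (k * n)) j) (pair (fpTube q t (k * n)) D) ω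
        < P.surC (icS (fpS t (k * n)) j) (pair Qn (pair (fpTube q t (k * n)) D)) ω - τ := by
    intro ω hω hbad
    by_contra hcon
    push Not at hcon
    obtain ⟨⟨h1, h5⟩, h2⟩ := hcon
    refine hbad fun j hj => ?_
    have h3 := h1 j hj
    have h4 := h2 j (Finset.mem_range.2 (by omega))
    -- the rescaled slope cell and the slope cell determine each other given `S_m`
    have e1 : P.surC (icS t (k * n + j)) (pair (pair (icS t (k * n)) Qn) D) ω
        = P.surC (icS (fpS t (k * n)) j) (pair (pair (icS t (k * n)) Qn) D) ω := by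
      refine ent_surC_congr P _ _ _ _ ω (fun ω' _ => Iff.rfl) (fun ω' _ hY => ?_)
      simp only [FLaw.pair, Prod.mk.injEq] at hY
      rw [fp_icS, fp_icS, hY.1.1]
      constructor
      · intro h; rw [h]
      · intro h; linarith
    have e2 : P.surC (icS (fpS t (k * n)) j) (pair Qn (pair (fpTube q t (k * n)) D)) ω
        = P.surC (icS (fpS t (k * n)) j) (pair (icU q t (k * n)) (pair (pair (icS t (k * n)) Qn) D)) ω := by
      refine ent_surC_congr P _ _ _ _ ω (fun ω' _ => ?_) (fun ω' _ _ => Iff.rfl)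
      simp only [FLaw.pair, fpTube, Prod.mk.injEq]
      tauto
    have h6 := ent_surC_swap P (icS (fpS t (k * n)) j) (icU q t (k * n)) (pair (pair (icS t (k * n)) Qn) D) hω
    have h7 := ent_surC_nonneg P (icU q t (k * n)) (pair (icS (fpS t (k * n)) j) (pair (pair (icS t (k * n)) Qn) D)) hω
    have e3 : (g * j - χ' * n) * Real.log 2 = g * j * Real.log 2 - χ' * n * Real.log 2 := by ring
    have e4 : (g * j - χ * n) * Real.log 2 = g * j * Real.log 2 - χ * n * Real.log 2 := by ring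
    rw [e3]
    rw [e4, e1] at h3
    rw [e2] at h4
    linarith
  calc P.pr (fun ω => ¬ IcGood P (icS (fpS t (k * n))) (pair (fpTube q t (k * n)) D) g χ' n ω)
      ≤ P.pr (fun ω => ((¬ IcGood P (fun j => icS t (k * n + j)) (pair (pair (icS t (k * n)) Qn) D) g χ n ω) ∨
          Real.log (2 * A + 4) + τ < P.surC (icU q t (k * n)) (pair (pair (icS t (k * n)) Qn) D) ω) ∨
          ∃ j ∈ Finset.range (n + 1), P.surC (icS (fpS t (k * n)) j) (pair (fpTube q t (k * n)) D) ω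
            < P.surC (icS (fpS t (k * n)) j) (pair Qn (pair (fpTube q t (k * n)) D)) ω - τ) :=
        ent_pr_mono P hsub
    _ ≤ (χ + Real.exp (-τ)) + ∑ _j ∈ Finset.range (n + 1), Real.exp (-τ) := by
        refine (ent_pr_or_le P _ _).trans (add_le_add ((ent_pr_or_le P _ _).trans (add_le_add (H.slope k hk) ?_))
          ((ent_pr_exists_le P _ _).trans (Finset.sum_le_sum fun j _ => ?_)))
        · exact ent_surC_tail P _ _ hc0 hlist τ
        · exact ic_lp P (icS (fpS t (k * n)) j) (pair (fpTube q t (k * n)) D) Qn τ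
    _ = χ + (n + 2) * Real.exp (-τ) := by
        rw [Finset.sum_const, Finset.card_range, nsmul_eq_mul]
        push_cast
        ring

/-- the conditional information depends only on the partitions -/
theorem fp_aux_miC_congr {a a' b b' c c' : Type} (P : FLaw Ω) (X : Ω → a) (X' : Ω → a') (Y : Ω → b) (Y' : Ω → b')
    (Z : Ω → c) (Z' : Ω → c') (hX : ∀ ω ω', X ω = X ω' ↔ X' ω = X' ω') (hY : ∀ ω ω', Y ω = Y ω' ↔ Y' ω = Y' ω')
    (hZ : ∀ ω ω', Z ω = Z ω' ↔ Z' ω = Z' ω') : P.miC X Y Z = P.miC X' Y' Z' := by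
  unfold FLaw.miC
  rw [ent_congr_ker P (pair X Z) (pair X' Z') (fun ω ω' _ _ => by simp only [FLaw.pair, Prod.mk.injEq, hX, hZ]),
    ent_congr_ker P (pair Y Z) (pair Y' Z') (fun ω ω' _ _ => by simp only [FLaw.pair, Prod.mk.injEq, hY, hZ]),
    ent_congr_ker P (pair (pair X Y) Z) (pair (pair X' Y') Z')
      (fun ω ω' _ _ => by simp only [FLaw.pair, Prod.mk.injEq, hX, hY, hZ]),
    ent_congr_ker P Z Z' (fun ω ω' _ _ => hZ ω ω')]

/-- adjoining a name with few values to the conditioning -/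
theorem fp_aux_miC_adj {a b c e : Type} (P : FLaw Ω) (X : Ω → a) (Y : Ω → b) (W : Ω → e) (Z : Ω → c) :
    P.miC X Y (pair W Z) ≤ P.miC X Y Z + P.entC W (pair Y Z) := by
  have h1 := ent_miC_chain P X Y W Z
  have h2 := ent_miC_chain P X W Y Z
  have h3 : P.miC X (pair Y W) Z = P.miC X (pair W Y) Z :=
    fp_aux_miC_congr P _ _ _ _ _ _ (fun _ _ => Iff.rfl)
      (fun ω ω' => by simp only [FLaw.pair, Prod.mk.injEq]; tauto) (fun _ _ => Iff.rfl)
  have h4 := ent_miC_nonneg P X W Z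
  have h5 := ent_miC_le_right P X W (pair Y Z)
  linarith

theorem fp_mi (H : FpHyp P q t D Tg Qn A d g χ N n) {k : ℕ} (hk : k < N) :
    P.miC (icQ (fpQ q t (k * n)) n) Tg (pair (fpTube q t (k * n)) D) ≤ χ * n * Real.log 2 + 2 * Real.log (2 * A + 4) := by
  have hmM : k * n ≤ N * n := Nat.mul_le_mul_right n hk.le
  have hmM' : k * n + n ≤ N * n := by
    have : (k + 1) * n ≤ N * n := Nat.mul_le_mul_right n hk
    rwa [Nat.succ_mul] at this
  -- step 1: adjoin the point name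
  have s1 : P.miC (icQ (fpQ q t (k * n)) n) Tg (pair (fpTube q t (k * n)) D)
      ≤ P.miC Tg Qn (pair (fpTube q t (k * n)) D) + Real.log (2 * A + 4) := by
    rw [ent_miC_comm]
    have h1 : P.miC Tg (icQ (fpQ q t (k * n)) n) (pair (fpTube q t (k * n)) D)
        ≤ P.miC Tg (pair (icQ (fpQ q t (k * n)) n) Qn) (pair (fpTube q t (k * n)) D) := by
      refine ent_miC_mono P _ _ _ _ fun ω ω' _ _ h _ => ?_
      simp only [FLaw.pair, Prod.mk.injEq] at h
      exact h.1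
    have h2 := ent_miC_chain P Tg (icQ (fpQ q t (k * n)) n) Qn (pair (fpTube q t (k * n)) D)
    have h3 := ent_miC_le_right P Tg (icQ (fpQ q t (k * n)) n) (pair Qn (pair (fpTube q t (k * n)) D))
    have h4 := ent_entC_le_log_nval P _ _ (fp_list_cell P D Qn H.bd H.pt hmM')
    linarith
  -- step 2: remove the intercept cell from the conditioning
  have s2 : P.miC Tg Qn (pair (fpTube q t (k * n)) D)
      ≤ P.miC Tg Qn (pair (icS t (k * n)) D) + Real.log (2 * A + 4) := by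
    have h1 : P.miC Tg Qn (pair (fpTube q t (k * n)) D) = P.miC Tg Qn (pair (icU q t (k * n)) (pair (icS t (k * n)) D)) :=
      fp_aux_miC_congr P _ _ _ _ _ _ (fun _ _ => Iff.rfl) (fun _ _ => Iff.rfl)
        (fun ω ω' => by simp only [FLaw.pair, fpTube, Prod.mk.injEq]; tauto)
    have h2 := fp_aux_miC_adj P Tg Qn (icU q t (k * n)) (pair (icS t (k * n)) D)
    have h3 : P.entC (icU q t (k * n)) (pair Qn (pair (icS t (k * n)) D))
        = P.entC (icU q t (k * n)) (pair (pair (icS t (k * n)) Qn) D) :=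
      ent_entC_congr P _ _ _ _ (fun ω ω' _ _ => by simp only [FLaw.pair, Prod.mk.injEq]; tauto)
        (fun _ _ _ _ _ => Iff.rfl)
    have h4 := ent_entC_le_log_nval P _ _ (fp_list_tube P D Qn H.bd H.pt hmM)
    linarith
  -- step 3: the slope cell is a function of the tag
  have s3 : P.miC Tg Qn (pair (icS t (k * n)) D) ≤ P.miC Qn Tg D := by
    rw [ent_miC_comm]
    have h1 := ent_miC_chain P Qn Tg (icS t (k * n)) D
    have h2 := ent_miC_nonneg P Qn (icS t (k * n)) D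
    have h3 : P.miC Qn (pair Tg (icS t (k * n))) D = P.miC Qn Tg D :=
      fp_aux_miC_congr P _ _ _ _ _ _ (fun _ _ => Iff.rfl)
        (fun ω ω' => by
          simp only [FLaw.pair, Prod.mk.injEq]
          exact ⟨fun h => h.1, fun h => ⟨h, fp_aux_nestS hmM (H.tag _ _ h)⟩⟩) (fun _ _ => Iff.rfl)
    linarith
  have := H.indep
  linarith

theorem fp_neg (H : FpHyp P q t D Tg Qn A d g χ N n) {k : ℕ} (hk : k < N) :
    P.ev (fun ω => max 0 (fpFs P q t D (k * n) n ω - fpSc P q t D Tg (k * n) n ω))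
      ≤ χ * n * Real.log 2 + 3 * Real.log (2 * A + 4) + 1 := by
  have hmM' : k * n + n ≤ N * n := by
    have : (k + 1) * n ≤ N * n := Nat.mul_le_mul_right n hk
    rwa [Nat.succ_mul] at this
  have hA0 : 0 ≤ A := by
    obtain ⟨ω, _⟩ := ent_exists_supp P
    exact (abs_nonneg _).trans (H.bd ω).1
  have h1 := fp_neg_abs P (icU (fpQ q t (k * n)) (fpS t (k * n)) n) (icQ (fpQ q t (k * n)) n) (icX (fpQ q t (k * n)) n) Tg
    (pair (fpTube q t (k * n)) D) (c := 2 * A + 4) (by linarith)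
    (fun ω ω' h => by
      simp only [icQ, Prod.mk.injEq] at h
      exact h.1)
    (fp_list_fib P D Tg H.bd fun ω ω' h => fp_aux_nestS hmM' (H.tag _ _ h))
  have h2 := fp_mi H hk
  have h3 : P.ev (fun ω => max 0 (fpFs P q t D (k * n) n ω - fpSc P q t D Tg (k * n) n ω))
      = P.ev (fun ω => max 0 (P.surC (icQ (fpQ q t (k * n)) n) (pair (icX (fpQ q t (k * n)) n) (pair (fpTube q t (k * n)) D)) ω
        - P.surC (icU (fpQ q t (k * n)) (fpS t (k * n)) n) (pair Tg (pair (fpTube q t (k * n)) D)) ω)) := rfl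
  rw [h3]
  linarith

/-- the tag determines the slope cells of all levels `≤ N n` -/
theorem fp_aux_tag (H : FpHyp P q t D Tg Qn A d g χ N n) {j : ℕ} (hj : j ≤ N * n) {ω ω' : Ω} (h : Tg ω = Tg ω') :
    icS t j ω = icS t j ω' := ic_cell_nest hj (H.tag ω ω' h)

omit [Fintype Ω] in
/-- the window names and the absolute names of the intercept determine each other given the tube -/
theorem fp_aux_icU_iff (q : Ω → ℝ × ℝ) (t : Ω → ℝ) (m j : ℕ) {ω ω' : Ω} (h : icU q t m ω = icU q t m ω') :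
    icU (fpQ q t m) (fpS t m) j ω = icU (fpQ q t m) (fpS t m) j ω' ↔ icU q t (m + j) ω = icU q t (m + j) ω' := by
  rw [fp_icU, fp_icU, h]
  constructor
  · intro h1; linarith
  · intro h1; rw [h1]

theorem fp_aux_lvl {k N n : ℕ} (hk : k < N) : k * n + n ≤ N * n := by
  have h2 : (k + 1) * n ≤ N * n := Nat.mul_le_mul_right n hk
  rwa [Nat.succ_mul] at h2

/-- one term of the budget -/
theorem fp_aux_budget_term (H : FpHyp P q t D Tg Qn A d g χ N n) {k : ℕ} (hk : k < N) :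
    P.ev (fun ω => fpSc P q t D Tg (k * n) n ω - fpFs P q t D (k * n) n ω)
      ≤ (P.entC (icU q t ((k + 1) * n)) (pair (icU q t (k * n)) (pair Tg D))
          - P.entC (icU q t ((k + 1) * n)) (pair (icU q t (k * n)) (pair (icX q n) (pair Tg D)))) + Real.log (2 * A + 4) := by
  have hlvl := fp_aux_lvl (n := n) hk
  have hm : k * n ≤ N * n := le_trans (Nat.le_add_right _ _) hlvl
  have hsucc : (k + 1) * n = k * n + n := Nat.succ_mul k n
  rw [ent_ev_sub]
  have ea : P.ev (fpSc P q t D Tg (k * n) n) = P.entC (icU q t ((k + 1) * n)) (pair (icU q t (k * n)) (pair Tg D)) := by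
    unfold fpSc
    rw [← ent_entC_eq_ev, hsucc]
    refine ent_entC_congr P _ _ _ _ (fun ω ω' _ _ => ?_) (fun ω ω' _ _ hY => ?_)
    · simp only [FLaw.pair, fpTube, Prod.mk.injEq]
      constructor
      · rintro ⟨h1, ⟨-, h3⟩, h4⟩
        exact ⟨h3, h1, h4⟩
      · rintro ⟨h1, h2, h3⟩
        exact ⟨h2, ⟨fp_aux_tag H hm h2, h1⟩, h3⟩
    · simp only [FLaw.pair, fpTube, Prod.mk.injEq] at hY
      exact fp_aux_icU_iff q t (k * n) n hY.2.1.2
  have eb : P.ev (fpFs P q t D (k * n) n)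
      = P.entC (icQ (fpQ q t (k * n)) n) (pair (icX (fpQ q t (k * n)) n) (pair (fpTube q t (k * n)) D)) := by
    unfold fpFs
    rw [← ent_entC_eq_ev]
  have ec : P.entC (icU q t ((k + 1) * n)) (pair (icU q t (k * n)) (pair (icX q n) (pair Tg D)))
      = P.entC (icU (fpQ q t (k * n)) (fpS t (k * n)) n)
          (pair (icX (fpQ q t (k * n)) n) (pair Tg (pair (fpTube q t (k * n)) D))) := by
    rw [hsucc, fp_icX]
    refine (ent_entC_congr P _ _ _ _ (fun ω ω' _ _ => ?_) (fun ω ω' _ _ hY => ?_)).symm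
    · simp only [FLaw.pair, fpTube, Prod.mk.injEq]
      constructor
      · rintro ⟨h0, h1, ⟨-, h3⟩, h4⟩
        exact ⟨h3, h0, h1, h4⟩
      · rintro ⟨h1, h0, h2, h3⟩
        exact ⟨h0, h2, ⟨fp_aux_tag H hm h2, h1⟩, h3⟩
    · simp only [FLaw.pair, fpTube, Prod.mk.injEq] at hY
      exact fp_aux_icU_iff q t (k * n) n hY.2.2.1.2
  rw [ea, eb, ec]
  -- the three entropy inequalities
  have hd1 : P.entC (icU (fpQ q t (k * n)) (fpS t (k * n)) n)
        (pair (icX (fpQ q t (k * n)) n) (pair Tg (pair (fpTube q t (k * n)) D)))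
      ≤ P.entC (pair (icQ (fpQ q t (k * n)) n) (icU (fpQ q t (k * n)) (fpS t (k * n)) n))
        (pair (icX (fpQ q t (k * n)) n) (pair Tg (pair (fpTube q t (k * n)) D))) :=
    ent_entC_mono P _ _ _ fun ω ω' _ _ h _ => congrArg Prod.snd h
  have hd2 := ent_entC_chain P (icQ (fpQ q t (k * n)) n) (icU (fpQ q t (k * n)) (fpS t (k * n)) n)
    (pair (icX (fpQ q t (k * n)) n) (pair Tg (pair (fpTube q t (k * n)) D)))
  have he : P.entC (icQ (fpQ q t (k * n)) n) (pair (icX (fpQ q t (k * n)) n) (pair Tg (pair (fpTube q t (k * n)) D)))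
      ≤ P.entC (icQ (fpQ q t (k * n)) n) (pair (icX (fpQ q t (k * n)) n) (pair (fpTube q t (k * n)) D)) :=
    ent_entC_anti P _ _ _ fun ω ω' _ _ h => by
      simp only [FLaw.pair, Prod.mk.injEq] at h ⊢
      exact ⟨h.1, h.2.2.1, h.2.2.2⟩
  have hf1 : P.entC (icU (fpQ q t (k * n)) (fpS t (k * n)) n)
        (pair (icQ (fpQ q t (k * n)) n) (pair (icX (fpQ q t (k * n)) n) (pair Tg (pair (fpTube q t (k * n)) D))))
      ≤ P.entC (icU (fpQ q t (k * n)) (fpS t (k * n)) n)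
        (pair (icQ (fpQ q t (k * n)) n) (pair Tg (pair (fpTube q t (k * n)) D))) :=
    ent_entC_anti P _ _ _ fun ω ω' _ _ h => by
      simp only [FLaw.pair, Prod.mk.injEq] at h ⊢
      exact ⟨h.1, h.2.2.1, h.2.2.2.1, h.2.2.2.2⟩
  have hf2 := ent_entC_le_log_nval P _ _ (fp_list_proj P D Tg (m := k * n) (n := n) H.bd
    (fun ω ω' h => fp_aux_tag H hlvl h))
  linarith

theorem fp_budget (H : FpHyp P q t D Tg Qn A d g χ N n) (hA : 1 ≤ A) :
    ∑ k ∈ Finset.range N, P.ev (fun ω => fpSc P q t D Tg (k * n) n ω - fpFs P q t D (k * n) n ω)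
      ≤ n * Real.log 2 + (N + 1) * Real.log (2 * A + 4) := by
  have h1 := fp_tele P (fun k => icU q t (k * n)) (icX q n) (pair Tg D) N
    (fun k ω ω' h => ic_cell_nest (Nat.mul_le_mul_right n (Nat.le_succ k)) h)
  have h2 := fp_ent_col P H.bd hA n
  refine (Finset.sum_le_sum fun k hk => fp_aux_budget_term H (Finset.mem_range.1 hk)).trans ?_
  rw [Finset.sum_add_distrib, Finset.sum_const, Finset.card_range, nsmul_eq_mul]
  linarith

theorem fp_chain (H : FpHyp P q t D Tg Qn A d g χ N n) {ω : Ω} (hω : P.p ω ≠ 0) :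
    ∑ k ∈ Finset.range N, fpSc P q t D Tg (k * n) n ω ≤ P.surC (icU q t (N * n)) (pair Tg D) ω := by
  have h1 := fp_chain_abs P (fun k => icU q t (k * n)) (pair Tg D) N
    (fun k ω ω' h => ic_cell_nest (Nat.mul_le_mul_right n (Nat.le_succ k)) h) hω
  refine le_trans (le_of_eq (Finset.sum_congr rfl fun k hk => ?_)) h1
  have hk' := Finset.mem_range.1 hk
  have hlvl := fp_aux_lvl (n := n) hk'
  have hm : k * n ≤ N * n := le_trans (Nat.le_add_right _ _) hlvl
  have hsucc : (k + 1) * n = k * n + n := Nat.succ_mul k n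
  unfold fpSc
  rw [hsucc]
  refine ent_surC_congr P _ _ _ _ ω (fun ω' _ => ?_) (fun ω' _ hY => ?_)
  · simp only [FLaw.pair, fpTube, Prod.mk.injEq]
    constructor
    · rintro ⟨h1, ⟨-, h3⟩, h4⟩
      exact ⟨h3, h1, h4⟩
    · rintro ⟨h1, h2, h3⟩
      exact ⟨h2, ⟨fp_aux_tag H hm h2, h1⟩, h3⟩
  · simp only [FLaw.pair, fpTube, Prod.mk.injEq] at hY
    exact fp_aux_icU_iff q t (k * n) n hY.2.1.2

end Claimed.Agent.R256
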